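import Mathlib

/-!
Definitions for the billiard flow in a Euclidean triangle.
The phase space is `ℂ × AddCircle (2π)`: position and direction angle.
-/

namespace Vale.Agent.P099

open MeasureTheory

noncomputable section

instance twoPiPos : Fact (0 < 2 * Real.pi) := ⟨Real.two_pi_pos⟩

/-- Direction angles, modulo `2π`. -/
abbrev Dir : Type := AddCircle (2 * Real.pi)

/-- The unit vector with direction angle `θ`. -/
def unitVec (θ : Dir) : ℂ := (AddCircle.toCircle θ : ℂ)

/-- The open triangle with vertices `A`, `B`, `C`. -/
def openTriangle (A B C : ℂ) : Set ℂ := interior (convexHull ℝ {A, B, C})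

/-- Specular reflection of a direction at a side parallel to `R - P`. -/
def reflectDir (P R : ℂ) (θ : Dir) : Dir := ((2 * Complex.arg (R - P) : ℝ) : Dir) - θ

/-- `Reaches A B C z t z'`: the billiard trajectory in the triangle `A B C` started from the state
`z = (position, direction)` is in the state `z'` after time `t`, moving along straight lines with
unit speed inside the open triangle and reflecting specularly at the open sides; it never meets
a vertex. -/
inductive Reaches (A B C : ℂ) : ℂ × Dir → ℝ → ℂ × Dir → Prop
  | free (x : ℂ) (θ : Dir) (t : ℝ) (ht : 0 ≤ t)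
      (hin : ∀ s ∈ Set.Ioc 0 t, x + s • unitVec θ ∈ openTriangle A B C) :
      Reaches A B C (x, θ) t (x + t • unitVec θ, θ)
  | bounce (x : ℂ) (θ : Dir) (τ t : ℝ) (z' : ℂ × Dir) (P R : ℂ) (hτ : 0 < τ)
      (hin : ∀ s ∈ Set.Ioo 0 τ, x + s • unitVec θ ∈ openTriangle A B C)
      (hside : (P, R) ∈ ({(A, B), (B, C), (C, A)} : Set (ℂ × ℂ)))
      (hhit : x + τ • unitVec θ ∈ openSegment ℝ P R)
      (hrest : Reaches A B C (x + τ • unitVec θ, reflectDir P R θ) t z') :
      Reaches A B C (x, θ) (τ + t) z'

/-- The normalized measure `dA dθ / (2π Area)` on (triangle) × (directions). -/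
def phaseMeasure (A B C : ℂ) : Measure (ℂ × Dir) :=
  (ENNReal.ofReal (2 * Real.pi) * volume (openTriangle A B C))⁻¹ •
    ((volume : Measure ℂ).restrict (openTriangle A B C)).prod (volume : Measure Dir)

/-- At least one angle of the triangle is an irrational multiple of `π`. -/
def IrrationalTriangle (A B C : ℂ) : Prop :=
  Irrational (EuclideanGeometry.angle B A C / Real.pi) ∨
    Irrational (EuclideanGeometry.angle C B A / Real.pi) ∨
    Irrational (EuclideanGeometry.angle A C B / Real.pi)

end

end Vale.Agent.P099
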