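import Vale.Agent.P099.Defs

/-! Plane geometry of one triangle: sides, mirrors, unfolding maps. -/

namespace Vale.Agent.P099

open MeasureTheory Complex Set

noncomputable section

attribute [-simp] Complex.real_smul

lemma unitVec_coe (r : ℝ) : unitVec (r : Dir) = Complex.exp ((r : ℂ) * I) := by
  unfold unitVec
  rw [AddCircle.toCircle_apply_mk]
  have : (2 * Real.pi / (2 * Real.pi) : ℝ) = 1 := div_self Real.two_pi_pos.ne'
  rw [this, one_mul, Circle.coe_exp]

lemma unitVec_add (θ η : Dir) : unitVec (θ + η) = unitVec θ * unitVec η := by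
  simp [unitVec, AddCircle.toCircle_add]

lemma unitVec_neg (θ : Dir) : unitVec (-θ) = (starRingEnd ℂ) (unitVec θ) := by
  simp only [unitVec, AddCircle.toCircle_neg]
  exact Circle.coe_inv_eq_conj _

lemma unitVec_sub (θ η : Dir) : unitVec (θ - η) = unitVec θ * (starRingEnd ℂ) (unitVec η) := by
  rw [sub_eq_add_neg, unitVec_add, unitVec_neg]

lemma norm_unitVec (θ : Dir) : ‖unitVec θ‖ = 1 := Circle.norm_coe _

lemma unitVec_ne_zero (θ : Dir) : unitVec θ ≠ 0 := Circle.coe_ne_zero _

lemma continuous_unitVec : Continuous unitVec :=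
  continuous_subtype_val.comp AddCircle.continuous_toCircle

lemma injective_unitVec : Function.Injective unitVec :=
  fun _ _ h => AddCircle.injective_toCircle Real.two_pi_pos.ne' (Subtype.ext h)

/-- Half a turn. -/
def halfTurn : Dir := ((Real.pi : ℝ) : Dir)

lemma halfTurn_add_halfTurn : halfTurn + halfTurn = 0 := by
  unfold halfTurn
  rw [← AddCircle.coe_add, ← two_mul, AddCircle.coe_period]

lemma neg_halfTurn : -halfTurn = halfTurn := neg_eq_of_add_eq_zero_left halfTurn_add_halfTurn

lemma unitVec_add_halfTurn (θ : Dir) : unitVec (θ + halfTurn) = -unitVec θ := by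
  rw [unitVec_add, halfTurn, unitVec_coe, Complex.exp_pi_mul_I]; ring

lemma fin3_ne (i : Fin 3) : i + 1 ≠ i ∧ i + 2 ≠ i ∧ i + 1 ≠ i + 2 := by revert i; decide

lemma fin3_cases : ∀ i j : Fin 3, j ≠ i → j = i + 1 ∨ j = i + 2 := by decide

lemma fin3_third : ∀ i j : Fin 3, i ≠ j → ∃ k, k ≠ i ∧ k ≠ j := by decide

lemma fin3_all : ∀ i j k m : Fin 3, i ≠ j → k ≠ i → k ≠ j → m = i ∨ m = j ∨ m = k := by decide

variable (b : AffineBasis (Fin 3) ℝ ℂ)

/-- The open triangle. -/
def Tri : Set ℂ := {x | ∀ i, 0 < b.coord i x}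

/-- linear part of a barycentric coordinate -/
def lin (i : Fin 3) : ℂ →ₗ[ℝ] ℝ := (b.coord i).linear

/-- side vector -/
def sideVec (i : Fin 3) : ℂ := b (i + 2) - b (i + 1)

/-- reflection of directions at side `i` -/
def mirror (i : Fin 3) (θ : Dir) : Dir := reflectDir (b (i + 1)) (b (i + 2)) θ

/-- the rotation part of the reflection at side `i` -/
def mirrorRot (i : Fin 3) : Circle := Circle.exp (2 * Complex.arg (sideVec b i))

/-- linear reflection -/
def linRefl (i : Fin 3) : ℂ ≃ₗᵢ[ℝ] ℂ := conjLIE.trans (rotation (mirrorRot b i))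

/-- affine reflection in the line of side `i` -/
def refl (i : Fin 3) (x : ℂ) : ℂ := b (i + 1) + linRefl b i (x - b (i + 1))

lemma linRefl_apply (i : Fin 3) (v : ℂ) :
    linRefl b i v = (mirrorRot b i : ℂ) * (starRingEnd ℂ) v := by
  simp [linRefl, rotation_apply]

lemma mirror_apply (i : Fin 3) (θ : Dir) :
    mirror b i θ = ((2 * Complex.arg (sideVec b i) : ℝ) : Dir) - θ := rfl

lemma mirror_mirror (i : Fin 3) (θ : Dir) : mirror b i (mirror b i θ) = θ := by
  simp [mirror_apply]

lemma mirror_add (i : Fin 3) (θ η : Dir) : mirror b i (θ + η) = mirror b i θ - η := by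
  simp [mirror_apply]; abel

lemma unitVec_mirror (i : Fin 3) (θ : Dir) :
    unitVec (mirror b i θ) = linRefl b i (unitVec θ) := by
  rw [mirror_apply, unitVec_sub, linRefl_apply, unitVec_coe, mirrorRot, Circle.coe_exp]

lemma coord_eq (i : Fin 3) (x y : ℂ) : b.coord i x = lin b i (x - y) + b.coord i y := by
  have := (b.coord i).linearMap_vsub x y
  simp only [vsub_eq_sub] at this
  rw [lin, this]; ring

lemma coord_add_smul (i : Fin 3) (x v : ℂ) (s : ℝ) :
    b.coord i (x + s • v) = b.coord i x + s * lin b i v := by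
  rw [coord_eq b i (x + s • v) x]
  simp; ring

lemma lin_sideVec (i : Fin 3) : lin b i (sideVec b i) = 0 := by
  have h := coord_eq b i (b (i + 2)) (b (i + 1))
  have h1 : i ≠ i + 1 := (fin3_ne i).1.symm
  have h2 : i ≠ i + 2 := (fin3_ne i).2.1.symm
  rw [b.coord_apply_ne h1, b.coord_apply_ne h2] at h
  unfold sideVec; linarith

lemma sideVec_ne_zero (i : Fin 3) : sideVec b i ≠ 0 := by
  intro h
  have h1 : i + 2 ≠ i + 1 := (fin3_ne i).2.2.symm
  exact h1 (b.ind.injective (sub_eq_zero.1 h))

lemma linRefl_sideVec (i : Fin 3) : linRefl b i (sideVec b i) = sideVec b i := by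
  rw [linRefl_apply, mirrorRot, Circle.coe_exp]
  nth_rewrite 2 [← Complex.norm_mul_exp_arg_mul_I (sideVec b i)]
  rw [map_mul, Complex.conj_ofReal, ← Complex.exp_conj, map_mul, Complex.conj_ofReal, conj_I]
  nth_rewrite 4 [← Complex.norm_mul_exp_arg_mul_I (sideVec b i)]
  rw [mul_left_comm, ← Complex.exp_add]
  congr 2
  push_cast; ring

lemma linRefl_I_sideVec (i : Fin 3) : linRefl b i (I * sideVec b i) = -(I * sideVec b i) := by
  have := linRefl_sideVec b i
  rw [linRefl_apply] at this
  rw [linRefl_apply, map_mul, conj_I]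
  linear_combination (-I) * this

lemma exists_decomp (i : Fin 3) (v : ℂ) :
    ∃ r s : ℝ, v = r • sideVec b i + s • (I * sideVec b i) := by
  refine ⟨(v / sideVec b i).re, (v / sideVec b i).im, ?_⟩
  simp only [Complex.real_smul]
  have h := Complex.re_add_im (v / sideVec b i)
  have h0 := sideVec_ne_zero b i
  calc v = (v / sideVec b i) * sideVec b i := by field_simp
    _ = _ := by nth_rewrite 1 [← h]; ring

lemma lin_linRefl (i : Fin 3) (v : ℂ) : lin b i (linRefl b i v) = -lin b i v := by
  obtain ⟨r, s, rfl⟩ := exists_decomp b i v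
  simp [map_add, map_smul, linRefl_sideVec, linRefl_I_sideVec, lin_sideVec]

lemma coord_base (i : Fin 3) : b.coord i (b (i + 1)) = 0 :=
  b.coord_apply_ne (by revert i; decide)

lemma coord_refl (i : Fin 3) (x : ℂ) : b.coord i (refl b i x) = -b.coord i x := by
  rw [coord_eq b i (refl b i x) (b (i + 1)), coord_eq b i x (b (i + 1)), coord_base]
  simp [refl, lin_linRefl, map_sub]; ring

lemma linRefl_linRefl (i : Fin 3) (v : ℂ) : linRefl b i (linRefl b i v) = v := by
  obtain ⟨r, s, rfl⟩ := exists_decomp b i v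
  simp [map_add, map_smul, linRefl_sideVec, linRefl_I_sideVec]

lemma refl_refl (i : Fin 3) (x : ℂ) : refl b i (refl b i x) = x := by
  simp [refl, linRefl_linRefl]

lemma refl_add (i : Fin 3) (x v : ℂ) : refl b i (x + v) = refl b i x + linRefl b i v := by
  simp only [refl]
  rw [show x + v - b (i + 1) = (x - b (i + 1)) + v by ring, LinearIsometryEquiv.map_add]; ring

lemma norm_refl_sub (i : Fin 3) (x y : ℂ) : ‖refl b i x - refl b i y‖ = ‖x - y‖ := by
  have : refl b i x - refl b i y = linRefl b i (x - y) := by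
    simp only [refl]
    rw [LinearIsometryEquiv.map_sub, LinearIsometryEquiv.map_sub, LinearIsometryEquiv.map_sub]
    ring
  rw [this, LinearIsometryEquiv.norm_map]

lemma refl_eq_self (i : Fin 3) (x : ℂ) (h : b.coord i x = 0) : refl b i x = x := by
  obtain ⟨r, s, hrs⟩ := exists_decomp b i (x - b (i + 1))
  have hl : lin b i (x - b (i + 1)) = 0 := by
    have := coord_eq b i x (b (i + 1)); rw [h, coord_base] at this; linarith
  have hI : lin b i (I * sideVec b i) ≠ 0 := by
    intro h0
    have hz : ∀ v, lin b i v = 0 := fun v => by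
      obtain ⟨r, s, rfl⟩ := exists_decomp b i v
      simp [lin_sideVec, h0]
    have := coord_eq b i (b i) (b (i + 1))
    rw [b.coord_apply_eq, coord_base, hz] at this
    norm_num at this
  rw [hrs, map_add, map_smul, map_smul, lin_sideVec] at hl
  have hs : s = 0 := by simpa [hI] using hl
  simp only [refl, hrs, hs, zero_smul, add_zero, map_smul, linRefl_sideVec]
  rw [hs, zero_smul, add_zero] at hrs
  rw [← hrs]; ring

lemma lin_ne_zero (i : Fin 3) : ∃ v, lin b i v ≠ 0 := by
  refine ⟨b i - b (i + 1), ?_⟩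
  have := coord_eq b i (b i) (b (i + 1))
  rw [b.coord_apply_eq, coord_base] at this
  linarith

lemma continuous_coord (i : Fin 3) : Continuous (b.coord i) :=
  continuous_barycentric_coord b i

lemma continuous_lin (i : Fin 3) : Continuous (lin b i) := LinearMap.continuous_of_finiteDimensional _

lemma isOpen_tri : IsOpen (Tri b) := by
  have : Tri b = ⋂ i, b.coord i ⁻¹' Ioi 0 := by ext; simp [Tri]
  rw [this]
  exact isOpen_iInter_of_finite fun i => isOpen_Ioi.preimage (continuous_coord b i)

lemma convex_tri : Convex ℝ (Tri b) := by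
  intro x hx y hy p q hp hq hpq i
  rw [Convex.combo_affine_apply hpq]
  rcases hp.lt_or_eq with hp' | hp'
  · exact add_pos_of_pos_of_nonneg (mul_pos hp' (hx i)) (mul_nonneg hq (hy i).le)
  · have : q = 1 := by linarith
    simp [← hp', this, hy i]

lemma tri_eq_interior : Tri b = interior (convexHull ℝ (Set.range b)) := by
  rw [AffineBasis.interior_convexHull]; rfl

lemma range_eq : Set.range b = {b 0, b 1, b 2} := by
  ext x
  simp [Fin.exists_fin_succ, eq_comm]

lemma tri_eq : Tri b = openTriangle (b 0) (b 1) (b 2) := by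
  rw [tri_eq_interior, range_eq]; rfl

lemma isBounded_tri : Bornology.IsBounded (Tri b) := by
  rw [tri_eq_interior]
  exact ((isBounded_convexHull.2 (Set.finite_range b).isBounded)).subset interior_subset

lemma tri_nonempty : (Tri b).Nonempty := by
  rw [tri_eq_interior]
  exact interior_convexHull_nonempty_iff_affineSpan_eq_top.2 b.tot

/-- A point with `coord i = 0` and the other coordinates positive lies in the open side `i`. -/
lemma mem_openSide (i : Fin 3) (x : ℂ) (h0 : b.coord i x = 0)
    (h : ∀ j ≠ i, 0 < b.coord j x) : x ∈ openSegment ℝ (b (i + 1)) (b (i + 2)) := by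
  refine ⟨b.coord (i + 1) x, b.coord (i + 2) x, h _ (fin3_ne i).1,
    h _ (fin3_ne i).2.1, ?_, ?_⟩
  · have := b.sum_coord_apply_eq_one x
    rw [Fin.sum_univ_three] at this
    fin_cases i <;> simp_all <;> linarith
  · have := b.linear_combination_coord_eq_self x
    rw [Fin.sum_univ_three] at this
    fin_cases i <;> simp_all [add_comm]

lemma coord_openSide (i : Fin 3) (x : ℂ) (hx : x ∈ openSegment ℝ (b (i + 1)) (b (i + 2))) :
    b.coord i x = 0 ∧ ∀ j ≠ i, 0 < b.coord j x := by
  obtain ⟨p, q, hp, hq, hpq, rfl⟩ := hx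
  constructor
  · rw [Convex.combo_affine_apply hpq, coord_base,
      b.coord_apply_ne (show i ≠ i + 2 by revert i; decide)]
    simp
  · intro j hj
    rw [Convex.combo_affine_apply hpq]
    have : j = i + 1 ∨ j = i + 2 := fin3_cases i j hj
    rcases this with rfl | rfl
    · rw [b.coord_apply_eq, b.coord_apply_ne (show i + 1 ≠ i + 2 by revert i; decide)]
      simp [hp]
    · rw [b.coord_apply_eq, b.coord_apply_ne (show i + 2 ≠ i + 1 by revert i; decide)]
      simp [hq]

lemma eq_vertex (i j : Fin 3) (hij : i ≠ j) (x : ℂ) (hi : b.coord i x = 0)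
    (hj : b.coord j x = 0) : ∃ k, x = b k := by
  obtain ⟨k, hki, hkj⟩ := fin3_third i j hij
  refine ⟨k, b.ext_elem fun m => ?_⟩
  have hm : m = i ∨ m = j ∨ m = k := fin3_all i j k m hij hki hkj
  have hsum := b.sum_coord_apply_eq_one x
  rw [Fin.sum_univ_three] at hsum
  rcases hm with rfl | rfl | rfl
  · rw [hi, b.coord_apply_ne (Ne.symm hki)]
  · rw [hj, b.coord_apply_ne (Ne.symm hkj)]
  · rw [b.coord_apply_eq]
    fin_cases i <;> fin_cases j <;> fin_cases m <;> simp_all

end

end Vale.Agent.P099
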