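import Vale.Agent.P099.Rigid

/-! Translation of the rigidity theorem to triangles given by their vertices. -/

namespace Vale.Agent.P099

open MeasureTheory Complex Set Filter Topology
open scoped ENNReal RealInnerProductSpace NNReal

noncomputable section

attribute [-simp] Complex.real_smul

variable (b : AffineBasis (Fin 3) ℝ ℂ)

lemma null_affine_level {L : ℂ →ₗ[ℝ] ℝ} (hL : ∃ v, L v ≠ 0) (c : ℝ) :
    volume {x : ℂ | L x = c} = 0 := by
  by_cases h : ∃ p, L p = c
  swap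
  · rw [show {x : ℂ | L x = c} = ∅ from eq_empty_of_forall_notMem fun x hx => h ⟨x, hx⟩]
    exact measure_empty
  obtain ⟨p, hp⟩ := h
  set v : ℂ := L I • (1 : ℂ) - L 1 • I with hv
  have hLv : L v = 0 := by rw [hv, map_sub, map_smul, map_smul, smul_eq_mul, smul_eq_mul]; ring
  have hvne : v ≠ 0 := by
    intro h0
    obtain ⟨x, hx⟩ := hL
    have h1 := congrArg Complex.re h0
    have h2 := congrArg Complex.im h0
    simp [hv, Complex.real_smul] at h1 h2
    apply hx
    rw [show x = x.re • (1 : ℂ) + x.im • I by apply Complex.ext <;> simp [Complex.real_smul]]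
    simp [h1, h2]
  set θ : Dir := ((Complex.arg v - Real.pi / 2 : ℝ) : Dir) with hθ
  have hdir : (‖v‖ : ℝ) • (I * unitVec θ) = v := by
    rw [Complex.real_smul, hθ, unitVec_coe]
    have hI : I * cexp (((Complex.arg v - Real.pi / 2 : ℝ) : ℂ) * I) =
        cexp ((Complex.arg v : ℂ) * I) := by
      conv_lhs => arg 1; rw [← Complex.exp_pi_div_two_mul_I]
      rw [← Complex.exp_add]; congr 1; push_cast; ring
    rw [hI]
    exact Complex.norm_mul_exp_arg_mul_I v
  refine measure_mono_null ?_ (null_line θ p)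
  intro x hx
  obtain ⟨r, hr⟩ := linear_kernel hL hvne hLv (u := p - x) (by rw [map_sub, hp, hx, sub_self])
  refine ⟨r * ‖v‖, ?_⟩
  rw [mul_smul, hdir, ← hr]; ring

lemma ae_exists_good {t : ℝ} (ht : 0 < t) :
    ∀ᵐ z : ℂ × Dir, z ∈ Phase b → ∃ w, Good b w z 0 t := by
  set S := {z : ℂ × Dir | z ∈ Phase b → ∃ w, Good b w z 0 t}
  have hS : MeasurableSet S := by
    have : S = (Phase b)ᶜ ∪ ⋃ w, {z | Good b w z 0 t} := by ext; simp [S, imp_iff_not_or]
    rw [this]
    exact (measurableSet_phase b).compl.union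
      (isOpen_iUnion fun w => isOpen_good_slice b w t).measurableSet
  rw [Measure.volume_eq_prod]
  refine (Measure.ae_prod_iff_ae_ae hS).2
    ((Measure.ae_ae_comm (p := fun x θ => (x, θ) ∈ S) hS).2 (ae_of_all _ fun θ => ?_))
  set e := unitVec θ with he
  set θ' : Dir := θ - ((Real.pi / 2 : ℝ) : Dir) with hθ'
  have hdir : I * unitVec θ' = e := by
    rw [hθ', unitVec_sub, unitVec_coe, ← Complex.exp_conj, map_mul, Complex.conj_ofReal,
      Complex.conj_I, show ((Real.pi / 2 : ℝ) : ℂ) * -I = -((Real.pi : ℂ) / 2 * I) by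
        push_cast; ring,
      Complex.exp_neg, Complex.exp_pi_div_two_mul_I, Complex.inv_I]
    linear_combination (-e) * Complex.I_mul_I
  have hn1 : volume (⋃ q ∈ vertexCopies b, {x : ℂ | ∃ h : ℝ, x + h • (I * unitVec θ') = q}) = 0 :=
    (measure_biUnion_null_iff (countable_range _)).2 fun q _ => null_line θ' q
  have hn2 : volume (⋃ j, {x : ℂ | formL b j x = -(formC b j + t * formL b j e)}) = 0 :=
    measure_iUnion_null fun j => null_affine_level (formL_ne b j) _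
  filter_upwards [measure_eq_zero_iff_ae_notMem.1 hn1, measure_eq_zero_iff_ae_notMem.1 hn2]
    with x h1 h2 hx
  refine exists_good b ht hx (fun hv => ?_) (fun hs => ?_)
  · obtain ⟨s, -, hs⟩ := hitsVertex_iff b hv
    exact h1 (mem_biUnion hs ⟨s, by rw [hdir]; rfl⟩)
  · obtain ⟨j, hj⟩ := onSideAt_iff b hs
    refine h2 (mem_iUnion.2 ⟨j, ?_⟩)
    simp only [pos, map_add, map_smul, smul_eq_mul, ← he] at hj
    show _ = _
    linarith

lemma volume_tri_ne_zero : volume (Tri b) ≠ 0 :=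
  ((isOpen_tri b).measure_pos _ (tri_nonempty b)).ne'

lemma volume_tri_ne_top : volume (Tri b) ≠ ⊤ := (isBounded_tri b).measure_lt_top.ne

/-- total mass of the phase space -/
def mass : ℝ≥0∞ := ENNReal.ofReal (2 * Real.pi) * volume (Tri b)

lemma mass_ne_zero : mass b ≠ 0 :=
  mul_ne_zero (by simp [Real.pi_pos]) (volume_tri_ne_zero b)

lemma mass_ne_top : mass b ≠ ⊤ := ENNReal.mul_ne_top ENNReal.ofReal_ne_top (volume_tri_ne_top b)

lemma volume_phase : volume (Phase b) = mass b := by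
  rw [show Phase b = Tri b ×ˢ (univ : Set Dir) by ext; simp [Phase], Measure.volume_eq_prod,
    Measure.prod_prod, AddCircle.measure_univ, mass, mul_comm]

lemma phaseMeasure_eq : phaseMeasure (b 0) (b 1) (b 2) =
    (mass b)⁻¹ • (volume : Measure (ℂ × Dir)).restrict (Phase b) := by
  rw [phaseMeasure, ← tri_eq, restrict_phase, mass]

lemma ae_phaseMeasure_iff {p : ℂ × Dir → Prop} :
    (∀ᵐ z ∂phaseMeasure (b 0) (b 1) (b 2), p z) ↔ ∀ᵐ z : ℂ × Dir, z ∈ Phase b → p z := by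
  rw [phaseMeasure_eq,
    Measure.ae_ennreal_smul_measure_iff (ENNReal.inv_ne_zero.2 (mass_ne_top b)),
    ae_restrict_iff' (measurableSet_phase b)]

lemma lintegral_phaseMeasure (f : ℂ × Dir → ℝ≥0∞) :
    ∫⁻ z in Phase b, f z = mass b * ∫⁻ z, f z ∂phaseMeasure (b 0) (b 1) (b 2) := by
  rw [phaseMeasure_eq, lintegral_smul_measure, smul_eq_mul, ← mul_assoc,
    ENNReal.mul_inv_cancel (mass_ne_zero b) (mass_ne_top b), one_mul]

lemma isProbability : IsProbabilityMeasure (phaseMeasure (b 0) (b 1) (b 2)) := by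
  constructor
  rw [phaseMeasure_eq, Measure.smul_apply, Measure.restrict_apply_univ, volume_phase, smul_eq_mul,
    ENNReal.inv_mul_cancel (mass_ne_zero b) (mass_ne_top b)]

lemma ae_existsUnique {t : ℝ} (ht : 0 ≤ t) :
    ∀ᵐ z ∂phaseMeasure (b 0) (b 1) (b 2),
      ∃! z' : ℂ × Dir, z'.1 ∈ openTriangle (b 0) (b 1) (b 2) ∧
        Reaches (b 0) (b 1) (b 2) z t z' := by
  rw [ae_phaseMeasure_iff, ← tri_eq]
  have huniq : ∀ z u v : ℂ × Dir, u.1 ∈ Tri b ∧ Reaches (b 0) (b 1) (b 2) z t u →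
      v.1 ∈ Tri b ∧ Reaches (b 0) (b 1) (b 2) z t v → u = v :=
    fun z u v hu hv => reaches_unique b hu.2 hv.2 hu.1 hv.1
  rcases ht.lt_or_eq with ht' | rfl
  · filter_upwards [ae_exists_good b ht'] with z hz h0
    obtain ⟨w, hw⟩ := hz h0
    exact ⟨_, ⟨hw.end_mem b, reaches_of_good b h0 hw⟩,
      fun v hv => huniq z v _ hv ⟨hw.end_mem b, reaches_of_good b h0 hw⟩⟩
  · refine ae_of_all _ fun z h0 => ?_
    have hr : Reaches (b 0) (b 1) (b 2) z 0 z := by
      have := Reaches.free (A := b 0) (B := b 1) (C := b 2) z.1 z.2 0 le_rfl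
        (fun s hs => absurd hs.1 (not_lt.2 hs.2))
      simpa using this
    exact ⟨z, ⟨h0, hr⟩, fun v hv => huniq z v z hv ⟨h0, hr⟩⟩

lemma turnAngle_angle (k : Fin 3) :
    ∃ n : ℤ,
      turnAngle b (k + 1) (k + 2) =
          2 * EuclideanGeometry.angle (b (k + 1)) (b k) (b (k + 2)) + n * (2 * Real.pi) ∨
      turnAngle b (k + 1) (k + 2) =
          -(2 * EuclideanGeometry.angle (b (k + 1)) (b k) (b (k + 2))) + n * (2 * Real.pi) := by
  have h0 : ∀ k : Fin 3, k + 1 + 2 = k ∧ k + 1 + 1 = k + 2 ∧ k + 2 + 1 = k ∧ k + 2 + 2 = k + 1 := by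
    decide
  obtain ⟨e1, e2, e3, e4⟩ := h0 k
  set si := sideVec b (k + 1) with hsi
  set sj := sideVec b (k + 2) with hsj
  have hi : si = b k - b (k + 2) := by rw [hsi, sideVec, e1, e2]
  have hj : sj = b (k + 1) - b k := by rw [hsj, sideVec, e4, e3]
  have hni : (-si) ≠ 0 := neg_ne_zero.2 (sideVec_ne_zero b _)
  have hang : EuclideanGeometry.angle (b (k + 1)) (b k) (b (k + 2)) = |(sj / -si).arg| := by
    rw [EuclideanGeometry.angle, vsub_eq_sub, vsub_eq_sub,
      Complex.angle_eq_abs_arg (by rw [← hj]; exact sideVec_ne_zero b _)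
        (by rw [show b (k + 2) - b k = -si by rw [hi]; ring]; exact hni)]
    rw [hj, show -si = b (k + 2) - b k by rw [hi]; ring]
  have hA := Complex.arg_div_coe_angle (sideVec_ne_zero b (k + 2)) hni
  rw [Complex.arg_neg_coe_angle (sideVec_ne_zero b _), ← Real.Angle.coe_add,
    ← Real.Angle.coe_sub] at hA
  obtain ⟨m, hm⟩ := Real.Angle.angle_eq_iff_two_pi_dvd_sub.1 hA
  rw [← hsi, ← hsj] at hm
  rw [hang]
  rcases abs_choice (sj / -si).arg with habs | habs <;> rw [habs]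
  · refine ⟨1 - 2 * m, Or.inl ?_⟩
    simp only [turnAngle, ← hsi, ← hsj]; push_cast; linarith
  · refine ⟨1 - 2 * m, Or.inr ?_⟩
    simp only [turnAngle, ← hsi, ← hsj]; push_cast; linarith

lemma irrTurn_of_irrational
    (h : IrrationalTriangle (b 0) (b 1) (b 2)) : IrrTurn b := by
  have key : ∀ k : Fin 3, Irrational
      (EuclideanGeometry.angle (b (k + 1)) (b k) (b (k + 2)) / Real.pi) → IrrTurn b := by
    intro k hk
    refine ⟨k, addOrderOf_eq_zero_iff.2 fun hfin => ?_⟩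
    rw [AddCircle.isOfFinAddOrder_iff_exists_rat_eq_div] at hfin
    obtain ⟨q, hq⟩ := hfin
    set α := EuclideanGeometry.angle (b (k + 1)) (b k) (b (k + 2))
    have hpi := Real.pi_ne_zero
    rw [irrational_iff_ne_rational] at hk
    obtain ⟨n, hn | hn⟩ := turnAngle_angle b k
    · apply Irrational.ne_rat (irrational_iff_ne_rational _ |>.2 hk) (q - n)
      rw [hn] at hq
      push_cast
      rw [hq]; field_simp; ring
    · apply Irrational.ne_rat (irrational_iff_ne_rational _ |>.2 hk) (n - q)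
      rw [hn] at hq
      push_cast
      rw [hq]; field_simp; ring
  have e : ((1 : Fin 3) + 1 = 2 ∧ (1 : Fin 3) + 2 = 0) ∧ ((2 : Fin 3) + 1 = 0 ∧ (2 : Fin 3) + 2 = 1) :=
    ⟨⟨rfl, rfl⟩, ⟨rfl, rfl⟩⟩
  rcases h with h | h | h
  · exact key 0 h
  · exact key 1 (by rw [e.1.1, e.1.2]; exact h)
  · exact key 2 (by rw [e.2.1, e.2.2]; exact h)

/-- eigenfunctions of bounded angular variation, vertex form -/
theorem eigenfunction_const (hirr : IrrTurn b) (lam : ℝ) (F : ℂ × Dir → ℂ) (K : ℝ≥0)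
    (hF : Integrable F (phaseMeasure (b 0) (b 1) (b 2)))
    (hinv : ∀ t : ℝ, 0 ≤ t → ∀ᵐ z ∂phaseMeasure (b 0) (b 1) (b 2), ∀ z' : ℂ × Dir,
      z'.1 ∈ openTriangle (b 0) (b 1) (b 2) → Reaches (b 0) (b 1) (b 2) z t z' →
        F z' = cexp (((lam * t : ℝ) : ℂ) * I) * F z)
    (hbv : ∀ u : ℝ, ∫⁻ z, ‖F (z.1, z.2 + (u : Dir)) - F z‖ₑ ∂phaseMeasure (b 0) (b 1) (b 2) ≤
      K * ENNReal.ofReal |u|) :
    ∃ c : ℂ, F =ᵐ[phaseMeasure (b 0) (b 1) (b 2)] (fun _ => c) ∧ (lam ≠ 0 → c = 0) := by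
  set μ := phaseMeasure (b 0) (b 1) (b 2) with hμ
  set F0 := hF.1.mk F
  have hF0 : Measurable F0 := hF.1.stronglyMeasurable_mk.measurable
  have heq : ∀ᵐ z : ℂ × Dir, z ∈ Phase b → F z = F0 z :=
    (ae_phaseMeasure_iff b).1 hF.1.ae_eq_mk
  have hE : Eig b F0 lam := by
    intro t ht w
    filter_upwards [(ae_phaseMeasure_iff b).1 (hinv t ht.le), heq,
      (mp_endState b w t).quasiMeasurePreserving.ae heq] with z h1 h2 h3 hz hg
    rw [← h3 (hg.end_mem b), ← h2 hz]
    exact h1 hz _ (by rw [← tri_eq]; exact hg.end_mem b) (reaches_of_good b hz hg)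
  have hN : ∫⁻ z in Phase b, ‖F0 z‖ₑ ≠ ⊤ := by
    rw [lintegral_phaseMeasure]
    refine ENNReal.mul_ne_top (mass_ne_top b) ?_
    have hcongr : ∫⁻ z, ‖F0 z‖ₑ ∂μ = ∫⁻ z, ‖F z‖ₑ ∂μ :=
      lintegral_congr_ae (hF.1.ae_eq_mk.symm.mono fun z hz => congrArg (‖·‖ₑ) hz)
    rw [← hμ, hcongr]
    exact hF.2.ne
  have hM : Modulus b F0 (mass b * K) := by
    intro u
    rw [lintegral_phaseMeasure, mul_assoc]
    gcongr
    refine le_trans (le_of_eq (lintegral_congr_ae ?_)) (hbv u)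
    refine (ae_phaseMeasure_iff b).2 ?_
    filter_upwards [heq, (mp_spin u).quasiMeasurePreserving.ae heq] with z h1 h2 hz
    show ‖F0 (spin u z) - F0 z‖ₑ = ‖F (z.1, z.2 + (u : Dir)) - F z‖ₑ
    rw [← h1 hz, ← h2 hz]; rfl
  obtain ⟨c, hc, hc0⟩ := eig_const b hF0 hE
    (ENNReal.mul_ne_top (mass_ne_top b) ENNReal.coe_ne_top) hM hN hirr
  refine ⟨c, (ae_phaseMeasure_iff b).2 ?_, hc0⟩
  filter_upwards [hc, heq] with z h1 h2 hz
  rw [h2 hz, h1 hz]

/-- invariant sets of finite angular perimeter, vertex form -/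
theorem invariantSet_trivial (hirr : IrrTurn b) (E : Set (ℂ × Dir)) (K : ℝ≥0)
    (hEm : MeasurableSet E)
    (hinv : ∀ t : ℝ, 0 ≤ t → ∀ᵐ z ∂phaseMeasure (b 0) (b 1) (b 2), ∀ z' : ℂ × Dir,
      z'.1 ∈ openTriangle (b 0) (b 1) (b 2) → Reaches (b 0) (b 1) (b 2) z t z' →
        (z' ∈ E ↔ z ∈ E))
    (hper : ∀ u : ℝ, phaseMeasure (b 0) (b 1) (b 2)
      (symmDiff E {z | (z.1, z.2 + (u : Dir)) ∈ E}) ≤ K * ENNReal.ofReal |u|) :
    phaseMeasure (b 0) (b 1) (b 2) E = 0 ∨ phaseMeasure (b 0) (b 1) (b 2) E = 1 := by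
  haveI := isProbability b
  set μ := phaseMeasure (b 0) (b 1) (b 2)
  set F : ℂ × Dir → ℂ := E.indicator fun _ => 1
  have hF : Integrable F μ := (integrable_const 1).indicator hEm
  obtain ⟨c, hc, -⟩ := eigenfunction_const b hirr 0 F K hF (fun t ht => by
    filter_upwards [hinv t ht] with z hz z' h1 h2
    have h := hz z' h1 h2
    simp only [zero_mul, Complex.ofReal_zero, Complex.exp_zero, one_mul]
    by_cases hzE : z ∈ E <;> simp [F, hzE, h.not.2, h.2]) (fun u => by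
    refine le_trans (le_of_eq ?_) (hper u)
    rw [← lintegral_indicator_one (show MeasurableSet (symmDiff E
      {z : ℂ × Dir | (z.1, z.2 + (u : Dir)) ∈ E}) from
      hEm.symmDiff ((show Measurable fun z : ℂ × Dir => (z.1, z.2 + (u : Dir)) by fun_prop) hEm))]
    refine lintegral_congr fun z => ?_
    by_cases h1 : z ∈ E <;> by_cases h2 : (z.1, z.2 + (u : Dir)) ∈ E <;>
      simp [F, h1, h2, Set.mem_symmDiff])
  by_cases hc1 : c = 1
  · right
    rw [← prob_compl_eq_zero_iff hEm]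
    refine measure_mono_null (fun z hz => ?_) (ae_iff.1 hc)
    show ¬ _ = _
    simp [F, indicator_of_notMem (Set.mem_compl_iff _ _ |>.1 hz), hc1]
  · left
    refine measure_mono_null (fun z hz => ?_) (ae_iff.1 hc)
    show ¬ _ = _
    simp [F, indicator_of_mem hz]
    exact fun h => hc1 h.symm

end

end Vale.Agent.P099
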