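import Vale.Agent.P099.Path

/-! Measure preservation, countability lemmas, and the segment covering lemma. -/

namespace Vale.Agent.P099

open MeasureTheory Complex Set Filter Topology

noncomputable section

attribute [-simp] Complex.real_smul

variable (b : AffineBasis (Fin 3) ℝ ℂ)

lemma mp_shift {v : Dir → ℂ} (hv : Continuous v) :
    MeasurePreserving (fun z : ℂ × Dir => (z.1 + v z.2, z.2)) volume volume := by
  have h : MeasurePreserving (fun q : Dir × ℂ => (q.1, q.2 + v q.1))
      ((volume : Measure Dir).prod (volume : Measure ℂ))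
      ((volume : Measure Dir).prod (volume : Measure ℂ)) :=
    (MeasurePreserving.id _).skew_product (g := fun θ x => x + v θ)
      (by have := hv.measurable; fun_prop)
      (ae_of_all _ fun θ => (measurePreserving_add_right (volume : Measure ℂ) (v θ)).map_eq)
  rw [Measure.volume_eq_prod]
  exact Measure.measurePreserving_swap.comp (h.comp Measure.measurePreserving_swap)

lemma mp_refl (i : Fin 3) :
    MeasurePreserving (refl b i) (volume : Measure ℂ) (volume : Measure ℂ) :=
  (measurePreserving_add_left (volume : Measure ℂ) (b (i + 1))).comp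
    ((linRefl b i).measurePreserving.comp
      (measurePreserving_sub_right (volume : Measure ℂ) (b (i + 1))))

lemma mp_mirror (i : Fin 3) :
    MeasurePreserving (mirror b i) (volume : Measure Dir) (volume : Measure Dir) :=
  Measure.measurePreserving_sub_left (volume : Measure Dir) _

lemma mp_fold1 (i : Fin 3) : MeasurePreserving (fold1 b i) volume volume := by
  rw [Measure.volume_eq_prod]
  exact (mp_refl b i).prod (mp_mirror b i)

lemma mp_fold (w : List (Fin 3)) : MeasurePreserving (fold b w) volume volume := by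
  induction w with
  | nil => exact MeasurePreserving.id _
  | cons i w ih => exact ih.comp (mp_fold1 b i)

lemma continuous_fold (w : List (Fin 3)) : Continuous (fold b w) := by
  induction w with
  | nil => exact continuous_id
  | cons i w ih => exact ih.comp (continuous_fold1 b i)

lemma mp_endState (w : List (Fin 3)) (t : ℝ) :
    MeasurePreserving (endState b w t) volume volume :=
  (mp_shift (v := fun θ => t • unitVec θ) (continuous_unitVec.const_smul t)).comp (mp_fold b w)

lemma mp_turn : MeasurePreserving turn (volume : Measure (ℂ × Dir)) volume := by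
  rw [Measure.volume_eq_prod]
  exact (MeasurePreserving.id _).prod (measurePreserving_add_right (volume : Measure Dir) halfTurn)

/-- rotate the direction -/
def spin (u : ℝ) (z : ℂ × Dir) : ℂ × Dir := (z.1, z.2 + (u : Dir))

lemma mp_spin (u : ℝ) : MeasurePreserving (spin u) (volume : Measure (ℂ × Dir)) volume := by
  rw [Measure.volume_eq_prod]
  exact (MeasurePreserving.id _).prod (measurePreserving_add_right (volume : Measure Dir) (u : Dir))

/-- translate orthogonally to the direction -/
def sideStep (d : ℝ) (z : ℂ × Dir) : ℂ × Dir := (z.1 + d • (I * unitVec z.2), z.2)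

lemma mp_sideStep (d : ℝ) :
    MeasurePreserving (sideStep d) (volume : Measure (ℂ × Dir)) volume :=
  mp_shift (v := fun θ => d • (I * unitVec θ))
    (((continuous_const.mul continuous_unitVec)).const_smul d)

lemma continuous_sideStep : Continuous fun q : ℝ × (ℂ × Dir) => sideStep q.1 q.2 := by
  have := continuous_unitVec
  unfold sideStep
  fun_prop

lemma sideStep_add (a c : ℝ) (z : ℂ × Dir) :
    sideStep (a + c) z = sideStep c (sideStep a z) := by
  simp [sideStep, add_smul, add_assoc]

lemma turn_sideStep (d : ℝ) (z : ℂ × Dir) : turn (sideStep d z) = sideStep (-d) (turn z) := by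
  simp [turn, sideStep, unitVec_add_halfTurn]

lemma continuous_turn : Continuous turn := by unfold turn; fun_prop

instance nullSingleton_dir : NullSingletonClass (volume : Measure Dir) :=
  ⟨fun x => by
    rw [← Metric.closedBall_zero, AddCircle.volume_closedBall]
    simp [Real.pi_pos.le]⟩

/-- phase space over the triangle -/
def Phase : Set (ℂ × Dir) := {z | z.1 ∈ Tri b}

lemma isOpen_phase : IsOpen (Phase b) := (isOpen_tri b).preimage continuous_fst

lemma measurableSet_phase : MeasurableSet (Phase b) := (isOpen_phase b).measurableSet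

lemma restrict_phase : (volume : Measure (ℂ × Dir)).restrict (Phase b) =
    ((volume : Measure ℂ).restrict (Tri b)).prod (volume : Measure Dir) := by
  rw [← Measure.restrict_univ (μ := (volume : Measure Dir)), Measure.prod_restrict,
    Measure.volume_eq_prod, show Phase b = Tri b ×ˢ (univ : Set Dir) by ext; simp [Phase]]

lemma countable_unitVec_level (L : ℂ →ₗ[ℝ] ℝ) (hL : ∃ v, L v ≠ 0) (k : ℝ) :
    {θ : Dir | L (unitVec θ) = k}.Countable := by
  have hre : ∀ v : ℂ, L v = v.re * L 1 + v.im * L I := by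
    intro v
    conv_lhs => rw [show v = v.re • (1 : ℂ) + v.im • I by apply Complex.ext <;> simp [Complex.real_smul]]
    simp
  set p := L 1 with hp
  set q := L I with hq
  have hpq : 0 < p ^ 2 + q ^ 2 := by
    obtain ⟨v, hv⟩ := hL
    rw [hre] at hv
    by_contra h
    have h1 : p = 0 := by nlinarith
    have h2 : q = 0 := by nlinarith
    simp [h1, h2] at hv
  suffices hsub : {θ : Dir | L (unitVec θ) = k} ⊆
      unitVec ⁻¹' ({(⟨(k * p - q * √(p ^ 2 + q ^ 2 - k ^ 2)) / (p ^ 2 + q ^ 2),
        (k * q + p * √(p ^ 2 + q ^ 2 - k ^ 2)) / (p ^ 2 + q ^ 2)⟩ : ℂ),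
        ⟨(k * p + q * √(p ^ 2 + q ^ 2 - k ^ 2)) / (p ^ 2 + q ^ 2),
        (k * q - p * √(p ^ 2 + q ^ 2 - k ^ 2)) / (p ^ 2 + q ^ 2)⟩} : Set ℂ) from
    Set.Countable.mono hsub ((Set.toFinite _).countable.preimage injective_unitVec)
  intro θ hθ
  simp only [mem_ofPred_eq, hre] at hθ
  set v := unitVec θ
  have hn : v.re ^ 2 + v.im ^ 2 = 1 := by
    have := norm_unitVec θ
    rw [Complex.norm_def, Real.sqrt_eq_one, Complex.normSq_apply] at this
    simp only [v]; nlinarith
  have hr : (p * v.im - q * v.re) ^ 2 = p ^ 2 + q ^ 2 - k ^ 2 := by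
    rw [← hθ]; linear_combination (p ^ 2 + q ^ 2) * hn
  have hs : |p * v.im - q * v.re| = √(p ^ 2 + q ^ 2 - k ^ 2) := by
    rw [← Real.sqrt_sq_eq_abs, hr]
  simp only [mem_preimage, mem_insert_iff, mem_singleton_iff]
  rcases le_total 0 (p * v.im - q * v.re) with h | h
  · left
    rw [abs_of_nonneg h] at hs
    rw [← hs, ← hθ]
    apply Complex.ext <;> simp only [v] <;> rw [eq_div_iff hpq.ne'] <;> ring
  · right
    rw [abs_of_nonpos h] at hs
    rw [← hs, ← hθ]
    apply Complex.ext <;> simp only [v] <;> rw [eq_div_iff hpq.ne'] <;> ring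

/-- pull back of a side functional along a code -/
lemma exists_affine_form (w : List (Fin 3)) (i : Fin 3) :
    ∃ (L : ℂ →ₗ[ℝ] ℝ) (c : ℝ), (∃ v, L v ≠ 0) ∧
      ∀ z s, b.coord i (pos (fold b w z) s) = L (pos z s) + c := by
  induction w with
  | nil =>
    refine ⟨lin b i, b.coord i 0, lin_ne_zero b i, fun z s => ?_⟩
    simpa using coord_eq b i (pos z s) 0
  | cons j w ih =>
    obtain ⟨L, c, ⟨v, hv⟩, h⟩ := ih
    refine ⟨L ∘ₗ (linRefl b j).toLinearEquiv.toLinearMap, L (refl b j 0) + c,
      ⟨linRefl b j v, by simpa [linRefl_linRefl] using hv⟩, fun z s => ?_⟩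
    rw [fold_cons, h, pos_fold1]
    have := refl_add b j 0 (pos z s)
    rw [zero_add] at this
    rw [this, map_add]
    simp; ring

/-- the unfolded vertices -/
def vertexCopies : Set ℂ :=
  Set.range fun q : List (Fin 3) × Fin 3 => (fold b q.1.reverse (b q.2, 0)).1

lemma fold_fst (w : List (Fin 3)) (x : ℂ) (θ η : Dir) :
    (fold b w (x, θ)).1 = (fold b w (x, η)).1 := by
  induction w generalizing x θ η with
  | nil => rfl
  | cons i w ih => exact ih _ _ _

lemma pos_fold (w : List (Fin 3)) (z : ℂ × Dir) (s : ℝ) :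
    pos (fold b w z) s = (fold b w (pos z s, z.2)).1 := by
  induction w generalizing z with
  | nil => rfl
  | cons i w ih => rw [fold_cons, fold_cons, ih, pos_fold1]; rfl

lemma hitsVertex_iff {z : ℂ × Dir} (h : HitsVertex b z) :
    ∃ s > 0, pos z s ∈ vertexCopies b := by
  obtain ⟨w, k, s, hs, he⟩ := h
  refine ⟨s, hs, ⟨(w, k), ?_⟩⟩
  rw [pos_fold] at he
  show (fold b w.reverse (b k, 0)).1 = pos z s
  rw [← he, fold_fst b w.reverse _ 0 (fold b w (pos z s, z.2)).2, fold_reverse_fold]

/-- a chosen affine form for (code, side) -/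
def formL (j : List (Fin 3) × Fin 3) : ℂ →ₗ[ℝ] ℝ := (exists_affine_form b j.1 j.2).choose

/-- a chosen affine form constant for (code, side) -/
def formC (j : List (Fin 3) × Fin 3) : ℝ := (exists_affine_form b j.1 j.2).choose_spec.choose

lemma formL_ne (j : List (Fin 3) × Fin 3) : ∃ v, formL b j v ≠ 0 :=
  (exists_affine_form b j.1 j.2).choose_spec.choose_spec.1

lemma onSideAt_iff {z : ℂ × Dir} {t : ℝ} (h : OnSideAt b t z) :
    ∃ j, formL b j (pos z t) + formC b j = 0 := by
  obtain ⟨w, i, he⟩ := h
  exact ⟨(w, i), by rw [← he]; exact ((exists_affine_form b w i).choose_spec.choose_spec.2 z t).symm⟩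

/-- the trajectory or the reversed trajectory lasts until time `T` -/
def Ok (T : ℝ) (z : ℂ × Dir) : Prop :=
  (∃ w, Good b w z 0 T) ∨ ∃ w, Good b w (turn z) 0 T

lemma isOpen_ok (T : ℝ) : IsOpen {z | Ok b T z} := by
  have : {z | Ok b T z} = (⋃ w, {z | Good b w z 0 T}) ∪ turn ⁻¹' (⋃ w, {z | Good b w z 0 T}) := by
    ext; simp [Ok]
  rw [this]
  exact (isOpen_iUnion fun w => isOpen_good_slice b w T).union
    ((isOpen_iUnion fun w => isOpen_good_slice b w T).preimage continuous_turn)

lemma linear_kernel {L : ℂ →ₗ[ℝ] ℝ} (hL : ∃ v, L v ≠ 0) {v u : ℂ} (hv : v ≠ 0)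
    (hLv : L v = 0) (hu : L u = 0) : ∃ r : ℝ, u = r • v := by
  have hIv : L (I * v) ≠ 0 := by
    intro h
    obtain ⟨x, hx⟩ := hL
    apply hx
    rw [show x = (x / v).re • v + (x / v).im • (I * v) by
      simp only [Complex.real_smul]
      calc x = (x / v) * v := by field_simp
        _ = _ := by nth_rewrite 1 [← Complex.re_add_im (x / v)]; ring]
    simp [hLv, h]
  refine ⟨(u / v).re, ?_⟩
  have hd : u = (u / v).re • v + (u / v).im • (I * v) := by
    simp only [Complex.real_smul]
    calc u = (u / v) * v := by field_simp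
      _ = _ := by nth_rewrite 1 [← Complex.re_add_im (u / v)]; ring
  rw [hd, map_add, map_smul, map_smul, hLv] at hu
  have : (u / v).im = 0 := by simpa [hIv] using hu
  rw [this, zero_smul, add_zero] at hd
  exact hd

/-- For all but countably many directions, only countably many positions are not `Ok`. -/
lemma countable_not_ok {T : ℝ} (hT : 0 < T) : ∃ Θ : Set Dir, Θ.Countable ∧
    ∀ θ ∉ Θ, {x ∈ Tri b | ¬ Ok b T (x, θ)}.Countable := by
  classical
  let P := vertexCopies b
  have hP : P.Countable := countable_range _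
  let Θ1 : Set Dir := ⋃ q ∈ P ×ˢ P, {θ | ∃ r : ℝ, 0 < r ∧ q.1 - q.2 = r • unitVec θ}
  let Θ2 : Set Dir := ⋃ j, {θ | formL b j (unitVec θ) = 0}
  let Θ3 : Set Dir := ⋃ (j) (k), {θ | ∃ r : ℝ, r ≠ 0 ∧ (∀ x, formL b k x = r * formL b j x) ∧
      2 * T * r * formL b j (unitVec θ) + r * formC b j - formC b k = 0}
  refine ⟨Θ1 ∪ Θ2 ∪ Θ3, ?_, fun θ hθ => ?_⟩
  · refine ((Set.Countable.biUnion (hP.prod hP) ?_).union (countable_iUnion fun j => ?_)).union
      (countable_iUnion fun j => countable_iUnion fun k => ?_)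
    · rintro ⟨q, q'⟩ -
      apply Set.Subsingleton.countable
      rintro θ ⟨r, hr, h⟩ θ' ⟨r', hr', h'⟩
      apply injective_unitVec
      have hn := congrArg norm (h.symm.trans h')
      rw [norm_smul, norm_smul, norm_unitVec, norm_unitVec, Real.norm_eq_abs, Real.norm_eq_abs,
        abs_of_pos hr, abs_of_pos hr', mul_one, mul_one] at hn
      subst hn
      exact smul_right_injective ℂ hr.ne' (h.symm.trans h')
    · exact countable_unitVec_level _ (formL_ne b j) 0
    · by_cases hex : ∃ r : ℝ, r ≠ 0 ∧ ∀ x, formL b k x = r * formL b j x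
      · obtain ⟨r, hr, hrx⟩ := hex
        refine (countable_unitVec_level _ (formL_ne b j)
          ((formC b k - r * formC b j) / (2 * T * r))).mono ?_
        rintro θ ⟨r', hr', hrx', heq⟩
        obtain ⟨v, hv⟩ := formL_ne b j
        obtain rfl : r' = r := mul_right_cancel₀ hv ((hrx' v).symm.trans (hrx v))
        rw [mem_ofPred_eq, eq_div_iff (by positivity)]
        linarith
      · refine Set.countable_empty.mono ?_
        rintro θ ⟨r, hr, hrx, -⟩
        exact hex ⟨r, hr, hrx⟩
  simp only [mem_union, not_or] at hθ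
  obtain ⟨⟨h1, h2⟩, h3⟩ := hθ
  set e := unitVec θ with he
  have hne : ∀ j, formL b j e ≠ 0 := fun j hj => h2 (mem_iUnion.2 ⟨j, hj⟩)
  let B1 : Set ℂ := ⋃ q ∈ P, ⋃ j, {x | (∃ s : ℝ, x + s • e = q) ∧
      formL b j (x - T • e) + formC b j = 0}
  let B2 : Set ℂ := ⋃ q ∈ P, ⋃ j, {x | (∃ s : ℝ, x + s • e = q) ∧
      formL b j (x + T • e) + formC b j = 0}
  let B3 : Set ℂ := ⋃ (j) (k), {x | formL b j (x + T • e) + formC b j = 0 ∧
      formL b k (x - T • e) + formC b k = 0}
  have hB : (B1 ∪ B2 ∪ B3).Countable := by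
    refine ((Set.Countable.biUnion hP fun q _ => countable_iUnion fun j => ?_).union
      (Set.Countable.biUnion hP fun q _ => countable_iUnion fun j => ?_)).union
      (countable_iUnion fun j => countable_iUnion fun k => ?_)
    all_goals apply Set.Subsingleton.countable
    · rintro x ⟨⟨s, hs⟩, hx⟩ y ⟨⟨r, hr⟩, hy⟩
      have hxy : x = y + (r - s) • e := by
        rw [sub_smul]; linear_combination hs - hr
      rw [hxy] at hx ⊢
      simp only [map_sub, map_add, map_smul, smul_eq_mul] at hx hy
      have : (r - s) * formL b j e = 0 := by linarith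
      simp [(mul_eq_zero.1 this).resolve_right (hne j)]
    · rintro x ⟨⟨s, hs⟩, hx⟩ y ⟨⟨r, hr⟩, hy⟩
      have hxy : x = y + (r - s) • e := by
        rw [sub_smul]; linear_combination hs - hr
      rw [hxy] at hx ⊢
      simp only [map_sub, map_add, map_smul, smul_eq_mul] at hx hy
      have : (r - s) * formL b j e = 0 := by linarith
      simp [(mul_eq_zero.1 this).resolve_right (hne j)]
    · rintro x ⟨hx, hx'⟩ y ⟨hy, hy'⟩
      simp only [map_sub, map_add, map_smul, smul_eq_mul] at hx hy hx' hy'
      by_contra hxy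
      have hv : x - y ≠ 0 := sub_ne_zero.2 hxy
      have hj : formL b j (x - y) = 0 := by rw [map_sub]; linarith
      have hk : formL b k (x - y) = 0 := by rw [map_sub]; linarith
      set r := formL b k e / formL b j e with hr
      have hrx : ∀ u, formL b k u = r * formL b j u := by
        intro u
        obtain ⟨a, ha⟩ := linear_kernel (formL_ne b j) hv hj
          (u := u - (formL b j u / formL b j e) • e)
          (by simp [div_mul_cancel₀ _ (hne j)])
        have := congrArg (formL b k) ha
        simp only [map_sub, map_smul, smul_eq_mul] at this hk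
        rw [hk, mul_zero] at this
        rw [hr]; field_simp [hne j] at this ⊢
        linarith
      have hr0 : r ≠ 0 := div_ne_zero (hne k) (hne j)
      refine h3 (mem_iUnion.2 ⟨j, mem_iUnion.2 ⟨k, r, hr0, hrx, ?_⟩⟩)
      have e1 := hrx y
      have e2 := hrx e
      rw [← he]
      have h4 : r * (formL b j y + T * formL b j e + formC b j) = 0 := by rw [hy, mul_zero]
      rw [e1, e2] at hy'
      linarith
  refine hB.mono ?_
  rintro x ⟨hx, hnot⟩
  simp only [Ok, not_or] at hnot
  have dich : ∀ z : ℂ × Dir, z.1 ∈ Tri b → (¬ ∃ w, Good b w z 0 T) →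
      (∃ s > 0, pos z s ∈ P) ∨ ∃ j, formL b j (pos z T) + formC b j = 0 := by
    intro z hz hn
    by_contra h
    simp only [not_or] at h
    exact hn (exists_good b hT hz (fun hv => h.1 (hitsVertex_iff b hv))
      (fun hs => h.2 (onSideAt_iff b hs)))
  have eb : ∀ s : ℝ, pos (turn (x, θ)) s = x - s • e := by
    intro s; simp [pos, turn, unitVec_add_halfTurn, he, sub_eq_add_neg]
  rcases dich (x, θ) hx hnot.1 with ⟨s, hs, hp⟩ | ⟨j, hj⟩ <;>
    rcases dich (turn (x, θ)) hx hnot.2 with ⟨r, hr, hq⟩ | ⟨k, hk⟩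
  · exfalso
    rw [eb] at hq
    refine h1 (mem_biUnion (x := (pos (x, θ) s, x - r • e)) ⟨hp, hq⟩ ⟨s + r, by linarith, ?_⟩)
    simp [pos, he, add_smul]
  · rw [eb] at hk
    exact Or.inl (Or.inl (mem_biUnion hp (mem_iUnion.2 ⟨k, ⟨s, rfl⟩, hk⟩)))
  · rw [eb] at hq
    exact Or.inl (Or.inr (mem_biUnion hq (mem_iUnion.2 ⟨j, ⟨-r, by simp [sub_eq_add_neg]⟩, hj⟩)))
  · rw [eb] at hk
    exact Or.inr (mem_iUnion.2 ⟨j, mem_iUnion.2 ⟨k, hj, hk⟩⟩)

lemma null_line (θ : Dir) (p : ℂ) :
    volume {x : ℂ | ∃ h : ℝ, x + h • (I * unitVec θ) = p} = 0 := by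
  set a : Circle := (AddCircle.toCircle θ)⁻¹ with ha
  have hrot : MeasurePreserving (rotation a) (volume : Measure ℂ) volume :=
    (rotation a).measurePreserving
  have hline : volume {v : ℂ | v.re = (rotation a p).re} = 0 := by
    have hs : MeasurableSet ({(rotation a p).re} ×ˢ (univ : Set ℝ)) :=
      (measurableSet_singleton _).prod MeasurableSet.univ
    have := Complex.volume_preserving_equiv_real_prod.measure_preimage hs.nullMeasurableSet
    rw [Measure.volume_eq_prod, Measure.prod_prod, Real.volume_singleton, zero_mul] at this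
    rw [← this]; congr 1; ext v; simp [Complex.measurableEquivRealProd]
  refine measure_mono_null ?_
    ((hrot.measure_preimage
      ((measurableSet_singleton _).preimage Complex.measurable_re).nullMeasurableSet).trans hline)
  rintro x ⟨h, rfl⟩
  show (rotation a x).re = (rotation a (x + h • (I * unitVec θ))).re
  have hu : (starRingEnd ℂ) (unitVec θ) * unitVec θ = 1 := by
    rw [Complex.conj_mul', norm_unitVec]; norm_num
  simp only [rotation_apply, ha, Circle.coe_inv_eq_conj]
  change _ = ((starRingEnd ℂ) (unitVec θ) * _).re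
  rw [mul_add, Complex.add_re, Complex.real_smul,
    show (starRingEnd ℂ) (unitVec θ) * ((h : ℂ) * (I * unitVec θ)) =
      (h : ℂ) * I * ((starRingEnd ℂ) (unitVec θ) * unitVec θ) by ring, hu]
  simp [unitVec]

/-- almost every transversal segment is covered by `Ok` states -/
lemma segment_ok {T : ℝ} (hT : 0 < T) (D : ℝ) :
    ∀ᵐ z : ℂ × Dir, z ∈ Phase b → sideStep D z ∈ Phase b →
      ∀ h ∈ uIcc 0 D, sideStep h z ∈ Phase b ∧ Ok b T (sideStep h z) := by
  set G := {z : ℂ × Dir | z ∈ Phase b → sideStep D z ∈ Phase b →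
    ∀ h ∈ uIcc 0 D, sideStep h z ∈ Phase b ∧ Ok b T (sideStep h z)} with hG
  have hopen : IsOpen {z : ℂ × Dir | ∀ h ∈ uIcc 0 D, sideStep h z ∈ Phase b ∧
      Ok b T (sideStep h z)} := by
    refine isOpen_iff_mem_nhds.2 fun z hz => isCompact_uIcc.eventually_forall_of_forall_eventually
      (fun h hh => ?_)
    exact ((((isOpen_phase b).inter (isOpen_ok b T)).preimage
      (continuous_sideStep.comp (continuous_snd.prodMk continuous_fst))).mem_nhds (hz h hh))
  have hS : MeasurableSet G := by
    have : G = (Phase b)ᶜ ∪ ((sideStep D ⁻¹' Phase b)ᶜ ∪ {z | ∀ h ∈ uIcc 0 D,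
        sideStep h z ∈ Phase b ∧ Ok b T (sideStep h z)}) := by
      ext z; simp [hG, imp_iff_not_or]
    rw [this]
    exact (measurableSet_phase b).compl.union
      (((mp_sideStep D).measurable (measurableSet_phase b)).compl.union hopen.measurableSet)
  suffices h : ∀ᵐ θ : Dir, ∀ᵐ x : ℂ, (x, θ) ∈ G by
    rw [Measure.volume_eq_prod]
    exact (Measure.ae_prod_iff_ae_ae hS).2 ((Measure.ae_ae_comm (p := fun x θ => (x, θ) ∈ G) hS).2 h)
  obtain ⟨Θ, hΘ, hB⟩ := countable_not_ok b hT
  filter_upwards [hΘ.ae_notMem (volume : Measure Dir)] with θ hθ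
  have hnull : volume (⋃ p ∈ {x ∈ Tri b | ¬ Ok b T (x, θ)},
      {x : ℂ | ∃ h : ℝ, x + h • (I * unitVec θ) = p}) = 0 :=
    (measure_biUnion_null_iff (hB θ hθ)).2 fun p _ => null_line θ p
  filter_upwards [measure_eq_zero_iff_ae_notMem.1 hnull] with x hx h0 hD h hh
  have hin : sideStep h (x, θ) ∈ Phase b := by
    show x + h • (I * unitVec θ) ∈ Tri b
    rw [← segment_eq_uIcc] at hh
    obtain ⟨p, q, hp, hq, hpq, rfl⟩ := hh
    have := convex_tri b h0 hD hp hq hpq
    convert this using 1
    simp only [sideStep, smul_eq_mul, mul_zero, zero_add, smul_add, ← mul_smul, ← add_assoc,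
      ← add_smul, hpq, one_smul]
  refine ⟨hin, by_contra fun hno => hx (mem_biUnion ⟨hin, hno⟩ ⟨h, rfl⟩)⟩

end

end Vale.Agent.P099
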