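import Vale.Agent.P099.Geo

/-! Unfolded trajectories: codes, openness, determinism, reversal, existence. -/

namespace Vale.Agent.P099

open MeasureTheory Complex Set Filter Topology

noncomputable section

attribute [-simp] Complex.real_smul

variable (b : AffineBasis (Fin 3) ℝ ℂ)

/-- position at clock `s` on the straight line through `z` -/
def pos (z : ℂ × Dir) (s : ℝ) : ℂ := z.1 + s • unitVec z.2

/-- one unfolding step -/
def fold1 (i : Fin 3) (z : ℂ × Dir) : ℂ × Dir := (refl b i z.1, mirror b i z.2)

/-- unfolding along a code -/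
def fold (w : List (Fin 3)) (z : ℂ × Dir) : ℂ × Dir := w.foldl (fun q i => fold1 b i q) z

@[simp] lemma fold_nil (z : ℂ × Dir) : fold b [] z = z := rfl
@[simp] lemma fold_cons (i : Fin 3) (w : List (Fin 3)) (z : ℂ × Dir) :
    fold b (i :: w) z = fold b w (fold1 b i z) := rfl
lemma fold_append (w v : List (Fin 3)) (z : ℂ × Dir) :
    fold b (w ++ v) z = fold b v (fold b w z) := List.foldl_append ..

/-- final state of a code at time `t` -/
def endState (w : List (Fin 3)) (t : ℝ) (z : ℂ × Dir) : ℂ × Dir :=
  (pos (fold b w z) t, (fold b w z).2)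

/-- hitting clock of the line of side `i` -/
def tau (i : Fin 3) (z : ℂ × Dir) : ℝ := -b.coord i z.1 / lin b i (unitVec z.2)

/-- The straight line from clock `a` to clock `t` crosses, folded, exactly the sides listed in
`w`, strictly, and ends inside the triangle. -/
def Good : List (Fin 3) → ℂ × Dir → ℝ → ℝ → Prop
  | [], z, a, t => a < t ∧ pos z t ∈ Tri b
  | i :: w, z, a, t => lin b i (unitVec z.2) < 0 ∧ a < tau b i z ∧
      (∀ j ≠ i, 0 < b.coord j (pos z (tau b i z))) ∧ Good w (fold1 b i z) (tau b i z) t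

/-- At clock `a` the state is inside, or on the boundary and entering. -/
def Ent (z : ℂ × Dir) (a : ℝ) : Prop :=
  ∀ j, 0 < b.coord j (pos z a) ∨ (b.coord j (pos z a) = 0 ∧ 0 < lin b j (unitVec z.2))

lemma coord_pos (i : Fin 3) (z : ℂ × Dir) (s : ℝ) :
    b.coord i (pos z s) = b.coord i z.1 + s * lin b i (unitVec z.2) := coord_add_smul ..

lemma coord_pos_tau (i : Fin 3) (z : ℂ × Dir) (h : lin b i (unitVec z.2) ≠ 0) :
    b.coord i (pos z (tau b i z)) = 0 := by
  rw [coord_pos, tau]; field_simp; ring

lemma coord_pos_sub (i : Fin 3) (z : ℂ × Dir) (s r : ℝ) :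
    b.coord i (pos z s) - b.coord i (pos z r) = (s - r) * lin b i (unitVec z.2) := by
  simp only [coord_pos]; ring

lemma pos_fold1 (i : Fin 3) (z : ℂ × Dir) (s : ℝ) :
    pos (fold1 b i z) s = refl b i (pos z s) := by
  simp only [pos, fold1, refl_add, unitVec_mirror, map_smul]

lemma fold1_fold1 (i : Fin 3) (z : ℂ × Dir) : fold1 b i (fold1 b i z) = z := by
  simp [fold1, refl_refl, mirror_mirror]

lemma fold_reverse_fold (w : List (Fin 3)) (z : ℂ × Dir) :
    fold b w.reverse (fold b w z) = z := by
  induction w generalizing z with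
  | nil => rfl
  | cons i w ih => simp [List.reverse_cons, fold_append, ih, fold1_fold1]

lemma Good.lt {w : List (Fin 3)} {z : ℂ × Dir} {a t : ℝ} (h : Good b w z a t) : a < t := by
  induction w generalizing z a with
  | nil => exact h.1
  | cons i w ih => exact h.2.1.trans (ih h.2.2.2)

lemma Good.end_mem {w : List (Fin 3)} {z : ℂ × Dir} {a t : ℝ} (h : Good b w z a t) :
    (endState b w t z).1 ∈ Tri b := by
  induction w generalizing z a with
  | nil => exact h.2
  | cons i w ih => exact ih h.2.2.2

/-- Determinism. -/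
lemma Good.unique {w v : List (Fin 3)} {z : ℂ × Dir} {a t : ℝ} (h : Good b w z a t)
    (h' : Good b v z a t) : w = v := by
  induction w generalizing z a v with
  | nil =>
    cases v with
    | nil => rfl
    | cons i v =>
      exfalso
      obtain ⟨hl, -, -, hg⟩ := h'
      have h1 := coord_pos_sub b i z t (tau b i z)
      rw [coord_pos_tau b i z hl.ne] at h1
      have := h.2 i
      nlinarith [hg.lt]
  | cons i w ih =>
    obtain ⟨hl, ha, ho, hg⟩ := h
    cases v with
    | nil =>
      exfalso
      have h1 := coord_pos_sub b i z t (tau b i z)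
      rw [coord_pos_tau b i z hl.ne] at h1
      have := h'.2 i
      nlinarith [hg.lt]
    | cons k v =>
      obtain ⟨hl', ha', ho', hg'⟩ := h'
      by_cases hik : i = k
      · subst hik; rw [ih hg hg']
      · exfalso
        rcases le_total (tau b i z) (tau b k z) with hle | hle
        · have h1 := coord_pos_sub b i z (tau b k z) (tau b i z)
          rw [coord_pos_tau b i z hl.ne] at h1
          nlinarith [ho' i hik]
        · have h1 := coord_pos_sub b k z (tau b i z) (tau b k z)
          rw [coord_pos_tau b k z hl'.ne] at h1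
          nlinarith [ho k (Ne.symm hik)]

lemma continuous_fold1 (i : Fin 3) : Continuous (fold1 b i) := by
  unfold fold1 refl mirror reflectDir
  fun_prop

lemma continuous_pos : Continuous fun q : (ℂ × Dir) × ℝ => pos q.1 q.2 := by
  have := continuous_unitVec
  unfold pos
  fun_prop

lemma isOpen_good_nil : IsOpen {q : (ℂ × Dir) × ℝ × ℝ | Good b [] q.1 q.2.1 q.2.2} := by
  have h1 : Continuous fun q : (ℂ × Dir) × ℝ × ℝ => pos q.1 q.2.2 :=
    continuous_pos.comp (continuous_fst.prodMk continuous_snd.snd)
  exact (isOpen_lt continuous_snd.fst continuous_snd.snd).inter ((isOpen_tri b).preimage h1)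

lemma continuous_linVec {α : Type*} [TopologicalSpace α] (i : Fin 3) :
    Continuous fun q : (ℂ × Dir) × α => lin b i (unitVec q.1.2) :=
  (continuous_lin b i).comp (continuous_unitVec.comp continuous_fst.snd)

lemma continuousAt_tau {α : Type*} [TopologicalSpace α] (i : Fin 3) (z : ℂ × Dir) (r : α)
    (h : lin b i (unitVec z.2) ≠ 0) :
    ContinuousAt (fun q : (ℂ × Dir) × α => tau b i q.1) (z, r) :=
  (((continuous_coord b i).comp continuous_fst.fst).neg.continuousAt).div
    (continuous_linVec b i).continuousAt h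

lemma continuousAt_posTau {α : Type*} [TopologicalSpace α] (i : Fin 3) (z : ℂ × Dir) (r : α)
    (h : lin b i (unitVec z.2) ≠ 0) :
    ContinuousAt (fun q : (ℂ × Dir) × α => pos q.1 (tau b i q.1)) (z, r) := by
  have h1 : ContinuousAt (fun q : (ℂ × Dir) × α => (q.1, tau b i q.1)) (z, r) :=
    continuousAt_fst.prodMk (continuousAt_tau b i z r h)
  exact continuous_pos.continuousAt.comp h1

/-- Openness. -/
lemma Good.eventually {w : List (Fin 3)} {z : ℂ × Dir} {a t : ℝ} (h : Good b w z a t) :
    ∀ᶠ q : (ℂ × Dir) × ℝ × ℝ in 𝓝 (z, a, t), Good b w q.1 q.2.1 q.2.2 := by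
  induction w generalizing z a with
  | nil => exact (isOpen_good_nil b).mem_nhds h
  | cons i w ih =>
    obtain ⟨hl, ha, ho, hg⟩ := h
    have htau := continuousAt_tau b i z (a, t) hl.ne
    have hpos := continuousAt_posTau b i z (a, t) hl.ne
    have e1 : ∀ᶠ q : (ℂ × Dir) × ℝ × ℝ in 𝓝 (z, a, t), lin b i (unitVec q.1.2) < 0 :=
      ((continuous_linVec (α := ℝ × ℝ) b i).tendsto (z, a, t)).eventually
        (Iio_mem_nhds hl)
    have e2 : ∀ᶠ q : (ℂ × Dir) × ℝ × ℝ in 𝓝 (z, a, t), q.2.1 < tau b i q.1 :=
      ContinuousAt.eventually_lt (continuous_snd.fst).continuousAt htau ha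
    have e3 : ∀ᶠ q : (ℂ × Dir) × ℝ × ℝ in 𝓝 (z, a, t),
        ∀ j, j ≠ i → 0 < b.coord j (pos q.1 (tau b i q.1)) := by
      refine eventually_all.2 fun j => ?_
      by_cases hj : j = i
      · exact Eventually.of_forall fun q h => absurd hj h
      · have hc := ((continuous_coord b j).tendsto _).comp hpos.tendsto
        exact (hc.eventually (Ioi_mem_nhds (ho j hj))).mono fun q hq _ => hq
    have hmap : Tendsto (fun q : (ℂ × Dir) × ℝ × ℝ => (fold1 b i q.1, tau b i q.1, q.2.2))
        (𝓝 (z, a, t)) (𝓝 (fold1 b i z, tau b i z, t)) :=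
      ((continuous_fold1 b i).comp continuous_fst).continuousAt.prodMk
        (htau.prodMk (continuous_snd.snd).continuousAt)
    filter_upwards [e1, e2, e3, hmap.eventually (ih hg)] with q q1 q2 q3 q4
    exact ⟨q1, q2, q3, q4⟩

lemma isOpen_good (w : List (Fin 3)) :
    IsOpen {q : (ℂ × Dir) × ℝ × ℝ | Good b w q.1 q.2.1 q.2.2} :=
  isOpen_iff_mem_nhds.2 fun _ hq => Good.eventually b hq

lemma isOpen_good_slice (w : List (Fin 3)) (t : ℝ) :
    IsOpen {z : ℂ × Dir | Good b w z 0 t} :=
  (isOpen_good b w).preimage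
    (show Continuous fun z : ℂ × Dir => (z, (0 : ℝ), t) by fun_prop)

/-- turning around -/
def turn (z : ℂ × Dir) : ℂ × Dir := (z.1, z.2 + halfTurn)

lemma turn_turn (z : ℂ × Dir) : turn (turn z) = z := by
  simp [turn, add_assoc, halfTurn_add_halfTurn]

/-- reversed line, with clock `s ↦ T - s` -/
def revLine (T : ℝ) (z : ℂ × Dir) : ℂ × Dir := (pos z T, z.2 + halfTurn)

lemma pos_revLine (T : ℝ) (z : ℂ × Dir) (s : ℝ) : pos (revLine T z) s = pos z (T - s) := by
  simp only [pos, revLine, unitVec_add_halfTurn, sub_smul, smul_neg]; ring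

lemma lin_revLine (i : Fin 3) (T : ℝ) (z : ℂ × Dir) :
    lin b i (unitVec (revLine T z).2) = -lin b i (unitVec z.2) := by
  simp [revLine, unitVec_add_halfTurn]

lemma fold1_revLine (i : Fin 3) (T : ℝ) (z : ℂ × Dir) :
    fold1 b i (revLine T z) = revLine T (fold1 b i z) := by
  refine Prod.ext ?_ ?_
  · show refl b i (pos z T) = pos (fold1 b i z) T
    rw [pos_fold1]
  · show mirror b i (z.2 + halfTurn) = mirror b i z.2 + halfTurn
    rw [mirror_add, sub_eq_add_neg, neg_halfTurn]

lemma lin_fold1 (i : Fin 3) (z : ℂ × Dir) :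
    lin b i (unitVec (fold1 b i z).2) = -lin b i (unitVec z.2) := by
  simp [fold1, unitVec_mirror, lin_linRefl]

lemma Good.reverse_aux {w : List (Fin 3)} {z : ℂ × Dir} {a T : ℝ} (h : Good b w z a T)
    (w2 : List (Fin 3)) (h2 : ∀ c < T - a, Good b w2 (revLine T z) c T) :
    Good b (w.reverse ++ w2) (revLine T (fold b w z)) 0 T := by
  induction w generalizing z a w2 with
  | nil => simpa using h2 0 (sub_pos.2 h.1)
  | cons i w ih =>
    obtain ⟨hl, ha, ho, hg⟩ := h
    have key : ∀ c < T - tau b i z, Good b (i :: w2) (revLine T (fold1 b i z)) c T := by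
      intro c hc
      have hl' : lin b i (unitVec (revLine T (fold1 b i z)).2) < 0 := by
        rw [lin_revLine, lin_fold1, neg_neg]; exact hl
      have htau : tau b i (revLine T (fold1 b i z)) = T - tau b i z := by
        have h0 := coord_pos_tau b i _ hl'.ne
        have h1 : b.coord i (pos (revLine T (fold1 b i z)) (T - tau b i z)) = 0 := by
          rw [pos_revLine, pos_fold1, coord_refl, sub_sub_cancel, coord_pos_tau b i z hl.ne,
            neg_zero]
        have h2 := coord_pos_sub b i (revLine T (fold1 b i z))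
          (tau b i (revLine T (fold1 b i z))) (T - tau b i z)
        rw [h0, h1, sub_zero] at h2
        rcases mul_eq_zero.1 h2.symm with h3 | h3
        · linarith
        · exact absurd h3 hl'.ne
      refine ⟨hl', by rwa [htau], fun j hj => ?_, ?_⟩
      · rw [htau, pos_revLine, pos_fold1, sub_sub_cancel,
          refl_eq_self b i _ (coord_pos_tau b i z hl.ne)]
        exact ho j hj
      · rw [htau, fold1_revLine, fold1_fold1]
        exact h2 _ (by linarith)
    simpa [List.reverse_cons, List.append_assoc] using ih hg (i :: w2) key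

lemma Good.reverse {w : List (Fin 3)} {z : ℂ × Dir} {T : ℝ} (hz : z.1 ∈ Tri b)
    (h : Good b w z 0 T) : Good b w.reverse (turn (endState b w T z)) 0 T := by
  have h2 : ∀ c < T - 0, Good b [] (revLine T z) c T := fun c hc =>
    ⟨by linarith, by rw [pos_revLine]; simpa [pos] using hz⟩
  have := h.reverse_aux b [] h2
  rwa [List.append_nil] at this

lemma fold_revLine (w : List (Fin 3)) (T : ℝ) (z : ℂ × Dir) :
    fold b w (revLine T z) = revLine T (fold b w z) := by
  induction w generalizing z with
  | nil => rfl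
  | cons i w ih => simp [fold1_revLine, ih]

lemma endState_reverse (w : List (Fin 3)) (T : ℝ) (z : ℂ × Dir) :
    endState b w.reverse T (turn (endState b w T z)) = turn z := by
  have : turn (endState b w T z) = revLine T (fold b w z) := rfl
  rw [this]
  unfold endState
  rw [fold_revLine, fold_reverse_fold, pos_revLine]
  simp [revLine, turn, pos]

/-- From a good code one gets a trajectory in the sense of `Reaches`. -/
lemma Good.reaches {w : List (Fin 3)} {z : ℂ × Dir} {a t : ℝ} (he : Ent b z a)
    (h : Good b w z a t) :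
    Reaches (b 0) (b 1) (b 2) (pos z a, z.2) (t - a) (endState b w t z) := by
  induction w generalizing z a with
  | nil =>
    have := Reaches.free (A := b 0) (B := b 1) (C := b 2) (pos z a) z.2 (t - a)
      (sub_nonneg.2 h.1.le) (fun s hs => ?_)
    · convert this using 2
      · simp [endState, pos, sub_smul]
      · rfl
    rw [← tri_eq]
    intro j
    have h1 : pos z a + s • unitVec z.2 = pos z (a + s) := by simp [pos, add_smul, add_assoc]
    rw [h1]
    have hs1 := coord_pos_sub b j z (a + s) a
    have hs2 := coord_pos_sub b j z t a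
    have ht := h.2 j
    obtain ⟨hs0, hst⟩ := hs
    rcases he j with hp | ⟨hp, hlp⟩ <;>
      rcases le_or_gt 0 (lin b j (unitVec z.2)) with hl | hl <;> nlinarith
  | cons i w ih =>
    obtain ⟨hl, ha, ho, hg⟩ := h
    set τ := tau b i z with hτdef
    have h0 : b.coord i (pos z τ) = 0 := coord_pos_tau b i z hl.ne
    have he' : Ent b (fold1 b i z) τ := by
      intro j
      rw [pos_fold1, refl_eq_self b i _ h0]
      rcases eq_or_ne j i with rfl | hj
      · exact Or.inr ⟨h0, by rw [lin_fold1]; linarith⟩
      · exact Or.inl (ho j hj)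
    have hrest := ih he' hg
    rw [pos_fold1, refl_eq_self b i _ h0] at hrest
    have hy : pos z a + (τ - a) • unitVec z.2 = pos z τ := by simp [pos, sub_smul]
    have hside : ((b (i + 1)), (b (i + 2))) ∈
        ({(b 0, b 1), (b 1, b 2), (b 2, b 0)} : Set (ℂ × ℂ)) := by
      fin_cases i <;> simp
    have := Reaches.bounce (A := b 0) (B := b 1) (C := b 2) (pos z a) z.2 (τ - a) (t - τ)
      (endState b (i :: w) t z) (b (i + 1)) (b (i + 2)) (sub_pos.2 ha) (fun s hs => ?_) hside
      (by rw [hy]; exact mem_openSide b i _ h0 ho) (by rw [hy]; exact hrest)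
    · rwa [show τ - a + (t - τ) = t - a by ring] at this
    rw [← tri_eq]
    intro j
    have h1 : pos z a + s • unitVec z.2 = pos z (a + s) := by simp [pos, add_smul, add_assoc]
    rw [h1]
    have hs1 := coord_pos_sub b j z (a + s) a
    have hs2 := coord_pos_sub b j z τ a
    obtain ⟨hs0, hst⟩ := hs
    rcases eq_or_ne j i with rfl | hj
    · have hs3 := coord_pos_sub b j z τ (a + s)
      nlinarith
    · have := ho j hj
      rcases he j with hp | ⟨hp, hlp⟩ <;>
        rcases le_or_gt 0 (lin b j (unitVec z.2)) with hl' | hl' <;> nlinarith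

lemma reaches_of_good {w : List (Fin 3)} {z : ℂ × Dir} {t : ℝ} (hz : z.1 ∈ Tri b)
    (h : Good b w z 0 t) : Reaches (b 0) (b 1) (b 2) z t (endState b w t z) := by
  have := h.reaches b (a := 0) (fun j => Or.inl (by simpa [pos] using hz j))
  simpa [pos] using this

/-- unfolded position of the line passes through a vertex at a positive clock -/
def HitsVertex (z : ℂ × Dir) : Prop :=
  ∃ w k, ∃ s > 0, pos (fold b w z) s = b k

/-- unfolded position at clock `t` lies on a side line -/
def OnSideAt (t : ℝ) (z : ℂ × Dir) : Prop :=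
  ∃ w i, b.coord i (pos (fold b w z) t) = 0

/-- Existence of trajectories. -/
lemma exists_good {z₀ : ℂ × Dir} {t : ℝ} (ht : 0 < t) (hz₀ : z₀.1 ∈ Tri b)
    (hv : ¬ HitsVertex b z₀) (hs : ¬ OnSideAt b t z₀) : ∃ w, Good b w z₀ 0 t := by
  by_contra hno
  let S := {q : List (Fin 3) × ℝ // 0 ≤ q.2 ∧ q.2 < t ∧ Ent b (fold b q.1 z₀) q.2 ∧
    ∀ w, Good b w (fold b q.1 z₀) q.2 t → ∃ w', Good b w' z₀ 0 t}
  have hstep : ∀ σ : S, ∃ σ' : S, ∃ i : Fin 3, σ'.1.1 = σ.1.1 ++ [i] ∧ σ.1.2 < σ'.1.2 ∧
      b.coord i (pos (fold b σ.1.1 z₀) σ'.1.2) = 0 ∧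
      lin b i (unitVec (fold b σ.1.1 z₀).2) < 0 := by
    rintro ⟨⟨p, a⟩, ha0, hat, hent, hlift⟩
    set z := fold b p z₀ with hz
    have hnil : pos z t ∉ Tri b := fun hm => hno (hlift [] ⟨hat, hm⟩)
    have hne : ∀ j, b.coord j (pos z t) ≠ 0 := fun j hj => hs ⟨p, j, hj⟩
    have hsne : (Finset.univ.filter fun j => b.coord j (pos z t) < 0).Nonempty := by
      simp only [Tri, mem_ofPred_eq, not_forall, not_lt] at hnil
      obtain ⟨j, hj⟩ := hnil
      exact ⟨j, by simpa using lt_of_le_of_ne hj (hne j)⟩
    obtain ⟨i, hi, hmin⟩ := Finset.exists_min_image _ (fun j => tau b j z) hsne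
    simp only [Finset.mem_filter, Finset.mem_univ, true_and] at hi hmin
    have hlneg : ∀ j, b.coord j (pos z t) < 0 → lin b j (unitVec z.2) < 0 := by
      intro j hj
      have hts := coord_pos_sub b j z t a
      rcases hent j with hp | ⟨hp, hlp⟩ <;> nlinarith
    have htau_gt : ∀ j, b.coord j (pos z t) < 0 → a < tau b j z := by
      intro j hj
      have hts := coord_pos_sub b j z t a
      have htt := coord_pos_sub b j z (tau b j z) a
      rw [coord_pos_tau b j z (hlneg j hj).ne] at htt
      have hl := hlneg j hj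
      rcases hent j with hp | ⟨hp, hlp⟩ <;> nlinarith
    have hl := hlneg i hi
    have hai : a < tau b i z := htau_gt i hi
    have hit : tau b i z < t := by
      have htt := coord_pos_sub b i z t (tau b i z)
      rw [coord_pos_tau b i z hl.ne] at htt
      nlinarith
    have h0 : b.coord i (pos z (tau b i z)) = 0 := coord_pos_tau b i z hl.ne
    have hothers : ∀ j ≠ i, 0 < b.coord j (pos z (tau b i z)) := by
      intro j hj
      have hne0 : b.coord j (pos z (tau b i z)) ≠ 0 := by
        intro h
        obtain ⟨k, hk⟩ := eq_vertex b j i hj _ h h0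
        exact hv ⟨p, k, tau b i z, by linarith, hk⟩
      refine lt_of_le_of_ne ?_ (Ne.symm hne0)
      have h1 := coord_pos_sub b j z (tau b i z) a
      have h2 := coord_pos_sub b j z t a
      by_cases hjn : b.coord j (pos z t) < 0
      · have h3 := coord_pos_sub b j z (tau b i z) (tau b j z)
        rw [coord_pos_tau b j z (hlneg j hjn).ne] at h3
        nlinarith [hmin j hjn, hlneg j hjn]
      · rcases hent j with hp | ⟨hp, hlp⟩ <;>
          rcases le_or_gt 0 (lin b j (unitVec z.2)) with hl' | hl' <;> nlinarith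
    refine ⟨⟨(p ++ [i], tau b i z), by linarith, hit, ?_, ?_⟩, i, rfl, hai, h0, hl⟩
    · simp only [fold_append, fold_cons, fold_nil]
      intro j
      rw [pos_fold1, refl_eq_self b i _ h0]
      rcases eq_or_ne j i with rfl | hj
      · exact Or.inr ⟨h0, by rw [lin_fold1]; linarith⟩
      · exact Or.inl (hothers j hj)
    · intro w hw
      simp only [fold_append, fold_cons, fold_nil] at hw
      exact hlift (i :: w) ⟨hl, hai, hothers, hw⟩
  choose next side hsucc hlt hcoord hlin using hstep
  let σ₀ : S := ⟨([], 0), le_rfl, ht, fun j => Or.inl (by simpa [pos] using hz₀ j),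
    fun w hw => ⟨w, hw⟩⟩
  let σ : ℕ → S := fun n => next^[n] σ₀
  let Z : ℕ → ℂ × Dir := fun n => fold b (σ n).1.1 z₀
  let A : ℕ → ℝ := fun n => (σ n).1.2
  let J : ℕ → Fin 3 := fun n => side (σ n)
  have hσ : ∀ n, σ (n + 1) = next (σ n) := fun n => Function.iterate_succ_apply' _ _ _
  have hZ : ∀ n, Z (n + 1) = fold1 b (J n) (Z n) := by
    intro n
    simp [Z, J, hσ, hsucc, fold_append]
  have hA : StrictMono A := strictMono_nat_of_lt_succ fun n => by
    simp only [A, hσ]; exact hlt _
  have hbdd : BddAbove (Set.range A) := ⟨t, by rintro _ ⟨n, rfl⟩; exact (σ n).2.2.1.le⟩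
  have htend := tendsto_atTop_ciSup hA.monotone hbdd
  set L := ⨆ n, A n with hL
  have hAL : ∀ n, A n < L := fun n => (hA (Nat.lt_succ_self n)).trans_le (le_ciSup hbdd _)
  have hz0 : ∀ n, b.coord (J n) (pos (Z n) (A (n + 1))) = 0 := fun n => by
    simp only [A, Z, J, hσ]; exact hcoord _
  -- the positions at clock `A (n+1)` form a Cauchy sequence
  let y : ℕ → ℂ := fun n => pos (Z n) (A (n + 1))
  have hy : ∀ n, ‖y (n + 1) - y n‖ = A (n + 2) - A (n + 1) := by
    intro n
    have : y n = pos (Z (n + 1)) (A (n + 1)) := by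
      rw [hZ, pos_fold1, refl_eq_self b _ _ (hz0 n)]
    have h2 : y (n + 1) - y n = (A (n + 2) - A (n + 1)) • unitVec (Z (n + 1)).2 := by
      rw [this]; simp only [y, pos, sub_smul]; ring
    rw [h2, norm_smul, norm_unitVec, mul_one, Real.norm_eq_abs,
      abs_of_pos (sub_pos.2 (hA (Nat.lt_succ_self _)))]
  have hcau : CauchySeq y := by
    refine cauchySeq_of_dist_le_of_summable (fun n => A (n + 2) - A (n + 1)) (fun n => ?_) ?_
    · rw [dist_comm, dist_eq_norm, hy]
    · refine summable_of_sum_range_le (c := L - A 1) (fun n => (sub_pos.2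
        (hA (Nat.lt_succ_self _))).le) (fun n => ?_)
      rw [Finset.sum_range_sub (fun k => A (k + 1)) n]
      linarith [hAL (n + 1)]
  obtain ⟨p, hp⟩ := cauchySeq_tendsto_of_complete hcau
  -- sides used infinitely often pass through the limit
  have hinf : ∀ᶠ n in atTop, b.coord (J n) p = 0 := by
    have hall : ∀ i, ∀ᶠ n in atTop, J n = i → b.coord i p = 0 := by
      intro i
      by_cases hip : b.coord i p = 0
      · exact Eventually.of_forall fun _ _ => hip
      · have := ((continuous_coord b i).continuousAt.tendsto.comp hp).eventually_ne hip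
        filter_upwards [this] with n hn hJ
        exact absurd (hJ ▸ hz0 n) hn
    filter_upwards [(eventually_all (ι := Fin 3)).2 hall] with n hn using hn (J n) rfl
  obtain ⟨N, hN⟩ := eventually_atTop.1 hinf
  -- the distance to the limit, as a function of the clock, is eventually independent of `n`
  have hdist : ∀ m, ∀ s, ‖pos (Z (N + m)) s - p‖ = ‖pos (Z N) s - p‖ := by
    intro m s
    induction m with
    | zero => rfl
    | succ m ih =>
      have hr : refl b (J (N + m)) p = p := refl_eq_self b _ _ (hN _ (by omega))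
      rw [← add_assoc, hZ, pos_fold1]
      nth_rewrite 1 [← hr]
      rw [norm_refl_sub, ih]
  have hlimit : pos (Z N) L = p := by
    have h1 : Tendsto (fun m => ‖pos (Z N) (A (N + m + 1)) - p‖) atTop
        (𝓝 ‖pos (Z N) L - p‖) := by
      have hc : Continuous fun s => ‖pos (Z N) s - p‖ := by unfold pos; fun_prop
      exact (hc.tendsto L).comp (htend.comp (tendsto_atTop_mono (fun m => by show m ≤ N + m + 1; omega) tendsto_id))
    have h2 : Tendsto (fun m => ‖pos (Z N) (A (N + m + 1)) - p‖) atTop (𝓝 0) := by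
      refine Tendsto.congr (fun m => hdist m _) ?_
      exact (tendsto_iff_norm_sub_tendsto_zero.1 hp).comp
        (tendsto_atTop_mono (fun m => by show m ≤ N + m; omega) tendsto_id)
    exact sub_eq_zero.1 (norm_eq_zero.1 (tendsto_nhds_unique h1 h2))
  have h3 := coord_pos_sub b (J N) (Z N) L (A (N + 1))
  rw [hlimit, hN N le_rfl, hz0 N] at h3
  have h4 : lin b (J N) (unitVec (Z N).2) < 0 := hlin _
  nlinarith [hAL (N + 1)]

/-- `Reaches` is deterministic towards interior end states. -/
lemma reaches_unique {z : ℂ × Dir} {t : ℝ} {u v : ℂ × Dir}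
    (h : Reaches (b 0) (b 1) (b 2) z t u) (h' : Reaches (b 0) (b 1) (b 2) z t v)
    (hu : u.1 ∈ Tri b) (hv : v.1 ∈ Tri b) : u = v := by
  have side : ∀ P R, (P, R) ∈ ({(b 0, b 1), (b 1, b 2), (b 2, b 0)} : Set (ℂ × ℂ)) →
      ∃ i, P = b (i + 1) ∧ R = b (i + 2) := by
    intro P R hPR
    simp only [mem_insert_iff, mem_singleton_iff, Prod.mk.injEq] at hPR
    rcases hPR with ⟨rfl, rfl⟩ | ⟨rfl, rfl⟩ | ⟨rfl, rfl⟩
    · exact ⟨2, rfl, rfl⟩
    · exact ⟨0, rfl, rfl⟩
    · exact ⟨1, rfl, rfl⟩
  have notin : ∀ P R x, (P, R) ∈ ({(b 0, b 1), (b 1, b 2), (b 2, b 0)} : Set (ℂ × ℂ)) →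
      x ∈ openSegment ℝ P R → x ∈ openTriangle (b 0) (b 1) (b 2) → False := by
    intro P R x hPR hx hxQ
    obtain ⟨i, rfl, rfl⟩ := side P R hPR
    rw [← tri_eq] at hxQ
    exact (hxQ i).ne' (coord_openSide b i x hx).1
  have nonneg : ∀ {z t u}, Reaches (b 0) (b 1) (b 2) z t u → 0 ≤ t := by
    intro z t u h
    induction h with
    | free x θ t ht hin => exact ht
    | bounce x θ τ t z' P R hτ hin hside hhit hrest ih => linarith
  induction h generalizing v with
  | free x θ t ht hin =>
    cases h' with
    | free x θ t ht' hin' => rfl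
    | bounce x θ τ t z' P R hτ hin' hside hhit hrest =>
      exact (notin P R _ hside hhit (hin τ ⟨hτ, le_add_of_nonneg_right (nonneg hrest)⟩)).elim
  | bounce x θ τ t z' P R hτ hin hside hhit hrest ih =>
    generalize hT : τ + t = T at h'
    cases h' with
    | free x θ T ht' hin' =>
      exact (notin P R _ hside hhit (hin' τ ⟨hτ, by linarith [nonneg hrest]⟩)).elim
    | bounce x θ τ' t' z'' P' R' hτ' hin' hside' hhit' hrest' =>
      rcases lt_trichotomy τ τ' with hlt | heq | hgt
      · exact (notin P R _ hside hhit (hin' τ ⟨hτ, hlt⟩)).elim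
      · subst heq
        obtain ⟨i, rfl, rfl⟩ := side P R hside
        obtain ⟨k, rfl, rfl⟩ := side P' R' hside'
        have hik : i = k := by
          by_contra hne
          exact (((coord_openSide b k _ hhit').2 i hne).ne') (coord_openSide b i _ hhit).1
        subst hik
        obtain rfl : t = t' := by linarith
        exact ih hrest' hu hv
      · exact (notin P' R' _ hside' hhit' (hin τ' ⟨hτ', hgt⟩)).elim

end

end Vale.Agent.P099
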