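import Vale.Agent.P099.Shear

/-! From invariance under translations to constancy. -/

namespace Vale.Agent.P099

open MeasureTheory Complex Set Filter Topology
open scoped ENNReal RealInnerProductSpace

noncomputable section

attribute [-simp] Complex.real_smul

variable (b : AffineBasis (Fin 3) ℝ ℂ)

/-- translate along the direction -/
def along (a : ℝ) (z : ℂ × Dir) : ℂ × Dir := (pos z a, z.2)

lemma mp_along (a : ℝ) : MeasurePreserving (along a) (volume : Measure (ℂ × Dir)) volume :=
  mp_shift (v := fun θ => a • unitVec θ) (continuous_unitVec.const_smul a)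

lemma along_along (a c : ℝ) (z : ℂ × Dir) : along c (along a z) = along (a + c) z := by
  simp [along, pos, add_smul, add_assoc]

lemma inner_unitVec_self (θ : Dir) : ⟪unitVec θ, unitVec θ⟫ = 1 := by
  rw [real_inner_self_eq_norm_sq, norm_unitVec, one_pow]

lemma inner_I_unitVec (θ : Dir) : ⟪I * unitVec θ, unitVec θ⟫ = 0 := by
  simp [Complex.inner, Complex.mul_re, Complex.mul_im]; ring

/-- the phase `cexp (i λ ⟪x, e θ⟫)` -/
def wave (lam : ℝ) (z : ℂ × Dir) : ℂ := cexp (((lam * ⟪z.1, unitVec z.2⟫ : ℝ) : ℂ) * I)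

lemma wave_ne_zero (lam : ℝ) (z : ℂ × Dir) : wave lam z ≠ 0 := Complex.exp_ne_zero _

lemma continuous_wave (lam : ℝ) : Continuous (wave lam) := by
  have := continuous_unitVec
  unfold wave; fun_prop

lemma wave_along (lam a : ℝ) (z : ℂ × Dir) :
    wave lam (along a z) = cexp (((lam * a : ℝ) : ℂ) * I) * wave lam z := by
  rw [wave, wave, ← Complex.exp_add]
  simp only [along, pos, inner_add_left, real_inner_smul_left, inner_unitVec_self]
  push_cast; ring_nf

lemma wave_sideStep (lam a : ℝ) (z : ℂ × Dir) : wave lam (sideStep a z) = wave lam z := by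
  rw [wave, wave]
  simp only [sideStep, inner_add_left, real_inner_smul_left, inner_I_unitVec, mul_zero, add_zero]

lemma eig_along {F : ℂ × Dir → ℂ} {lam : ℝ} (hE : Eig b F lam) (a : ℝ) :
    ∀ᵐ z : ℂ × Dir, z ∈ Phase b → along a z ∈ Phase b →
      F (along a z) / wave lam (along a z) = F z / wave lam z := by
  have key : ∀ c : ℝ, 0 < c → ∀ᵐ z : ℂ × Dir, z ∈ Phase b → along c z ∈ Phase b →
      F (along c z) / wave lam (along c z) = F z / wave lam z := by
    intro c hc
    filter_upwards [hE c hc []] with z hz h0 h1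
    have := hz h0 ⟨hc, h1⟩
    rw [show endState b [] c z = along c z from rfl] at this
    rw [this, wave_along, mul_div_mul_left _ _ (Complex.exp_ne_zero _)]
  rcases lt_trichotomy a 0 with h | rfl | h
  · filter_upwards [(mp_along a).quasiMeasurePreserving.ae (key (-a) (by linarith))] with z hz h0 h1
    have e : along (-a) (along a z) = z := by simp [along_along, along, pos]
    rw [e] at hz
    exact (hz h1 h0).symm
  · exact ae_of_all _ fun z _ _ => by simp [along, pos]
  · exact key a h

/-- The fibrewise constancy of `F / wave`. -/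
theorem exists_profile {F : ℂ × Dir → ℂ} (hF : Measurable F) {lam : ℝ} (hE : Eig b F lam)
    (hS : ∀ D, ∀ᵐ z : ℂ × Dir, z ∈ Phase b → sideStep D z ∈ Phase b → F (sideStep D z) = F z) :
    ∃ f : Dir → ℂ, Measurable f ∧ ∀ᵐ z : ℂ × Dir, z ∈ Phase b → F z = f z.2 * wave lam z := by
  set H : ℂ × Dir → ℂ := fun z => F z / wave lam z with hH
  have hHm : Measurable H := by
    have := (continuous_wave lam).measurable
    simp only [hH]; fun_prop
  -- invariance under every displacement in the moving frame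
  let mv : ℂ → ℂ × Dir → ℂ × Dir := fun v z => sideStep v.im (along v.re z)
  have hmv : ∀ v z, (mv v z).1 = z.1 + v * unitVec z.2 := by
    intro v z
    simp only [mv, sideStep, along, pos, Complex.real_smul]
    conv_rhs => rw [← Complex.re_add_im v]
    ring
  have h1 : ∀ v : ℂ, ∀ᵐ z : ℂ × Dir, z ∈ Phase b → along v.re z ∈ Phase b → mv v z ∈ Phase b →
      H (mv v z) = H z := by
    intro v
    filter_upwards [eig_along b hE v.re, (mp_along v.re).quasiMeasurePreserving.ae (hS v.im)]
      with z hz hz' h0 h1 h2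
    simp only [hH, mv]
    rw [hz' h1 h2, wave_sideStep]
    exact hz h0 h1
  let R : (ℂ × Dir) × ℂ → Prop := fun r => r.1 ∈ Phase b → (r.2, r.1.2) ∈ Phase b →
    along (((r.2 - r.1.1) * (starRingEnd ℂ) (unitVec r.1.2)).re) r.1 ∈ Phase b →
    H (r.2, r.1.2) = H r.1
  have hu := continuous_unitVec
  have hR : MeasurableSet {r | R r} := by
    have ha : Continuous fun r : (ℂ × Dir) × ℂ =>
        along (((r.2 - r.1.1) * (starRingEnd ℂ) (unitVec r.1.2)).re) r.1 := by
      unfold along pos; fun_prop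
    have hP := measurableSet_phase b
    have e : {r | R r} = (Prod.fst ⁻¹' Phase b)ᶜ ∪ (((fun r : (ℂ × Dir) × ℂ => (r.2, r.1.2)) ⁻¹'
        Phase b)ᶜ ∪ (((fun r : (ℂ × Dir) × ℂ =>
        along (((r.2 - r.1.1) * (starRingEnd ℂ) (unitVec r.1.2)).re) r.1) ⁻¹' Phase b)ᶜ ∪
        {r | H (r.2, r.1.2) = H r.1})) := by
      ext r; simp [R, imp_iff_not_or]
    rw [e]
    refine (measurable_fst hP).compl.union (((?_ : Measurable _) hP).compl.union
      ((ha.measurable hP).compl.union (measurableSet_eq_fun ?_ ?_)))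
    · fun_prop
    · fun_prop
    · fun_prop
  have h2 : ∀ᵐ z : ℂ × Dir, ∀ᵐ q : ℂ, R (z, q) := by
    -- change variables `v ↦ z.1 + v * e`
    have hR' : MeasurableSet {r : (ℂ × Dir) × ℂ | R (r.1, r.1.1 + r.2 * unitVec r.1.2)} :=
      (show Measurable fun r : (ℂ × Dir) × ℂ => (r.1, r.1.1 + r.2 * unitVec r.1.2) by fun_prop) hR
    have h3 : ∀ᵐ v : ℂ, ∀ᵐ z : ℂ × Dir, R (z, z.1 + v * unitVec z.2) := by
      refine ae_of_all _ fun v => ?_
      filter_upwards [h1 v] with z hz hz0 hz2 hz1
      have he : ((z.1 + v * unitVec z.2 - z.1) * (starRingEnd ℂ) (unitVec z.2)).re = v.re := by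
        rw [add_sub_cancel_left, mul_assoc, Complex.mul_conj', norm_unitVec]; simp
      simp only [he] at hz1
      have hm : mv v z = (z.1 + v * unitVec z.2, z.2) := Prod.ext (hmv v z) rfl
      simpa [hm] using hz hz0 hz1 (by rw [hm]; exact hz2)
    have h4 := (Measure.ae_ae_comm (p := fun z v => R (z, z.1 + v * unitVec z.2)) hR').2 h3
    filter_upwards [h4] with z hz
    let a : Circle := AddCircle.toCircle z.2
    have hfun : (fun q : ℂ => (q - z.1) * (starRingEnd ℂ) (unitVec z.2)) =
        fun q => rotation a⁻¹ (q - z.1) := by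
      funext q
      rw [rotation_apply, Circle.coe_inv_eq_conj, mul_comm]
      rfl
    have hmp : MeasurePreserving (fun q : ℂ => (q - z.1) * (starRingEnd ℂ) (unitVec z.2))
        (volume : Measure ℂ) volume := by
      rw [hfun]
      exact (rotation a⁻¹).measurePreserving.comp
        (measurePreserving_sub_right (volume : Measure ℂ) z.1)
    filter_upwards [hmp.quasiMeasurePreserving.ae hz] with q hq
    have : z.1 + (q - z.1) * (starRingEnd ℂ) (unitVec z.2) * unitVec z.2 = q := by
      rw [mul_assoc, Complex.conj_mul', norm_unitVec]; simp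
    rwa [this] at hq
  have h5 : ∀ᵐ r : Dir × (ℂ × ℂ), R ((r.2.1, r.1), r.2.2) := by
    have h6 : ∀ᵐ r : (ℂ × Dir) × ℂ, R r := by
      rw [Measure.volume_eq_prod]
      exact (Measure.ae_prod_iff_ae_ae hR).2 h2
    have hmp : MeasurePreserving (fun r : Dir × (ℂ × ℂ) => ((r.2.1, r.1), r.2.2))
        (volume : Measure (Dir × (ℂ × ℂ))) (volume : Measure ((ℂ × Dir) × ℂ)) := by
      have e1 : MeasurePreserving (fun r : Dir × (ℂ × ℂ) => ((r.1, r.2.1), r.2.2))
          ((volume : Measure Dir).prod ((volume : Measure ℂ).prod (volume : Measure ℂ)))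
          (((volume : Measure Dir).prod (volume : Measure ℂ)).prod (volume : Measure ℂ)) :=
        (measurePreserving_prodAssoc _ _ _).symm _
      have e2 : MeasurePreserving (fun r : (Dir × ℂ) × ℂ => (r.1.swap, r.2))
          (((volume : Measure Dir).prod (volume : Measure ℂ)).prod (volume : Measure ℂ))
          (((volume : Measure ℂ).prod (volume : Measure Dir)).prod (volume : Measure ℂ)) :=
        Measure.measurePreserving_swap.prod (MeasurePreserving.id _)
      exact e2.comp e1
    exact hmp.quasiMeasurePreserving.ae h6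
  have h7 : ∀ᵐ θ : Dir, ∀ᵐ x : ℂ, ∀ᵐ q : ℂ, R ((x, θ), q) := by
    filter_upwards [Measure.ae_ae_of_ae_prod (show ∀ᵐ r ∂(volume : Measure Dir).prod
      (volume : Measure (ℂ × ℂ)), R ((r.2.1, r.1), r.2.2) from h5)] with θ hθ
    exact Measure.ae_ae_of_ae_prod hθ
  -- per direction, `H` is a.e. constant
  have h8 : ∀ᵐ θ : Dir, ∃ c : ℂ, ∀ᵐ q : ℂ, q ∈ Tri b → H (q, θ) = c := by
    filter_upwards [h7] with θ hθ
    have hloc : ∀ p : Tri b, ∃ r : ℝ, 0 < r ∧ ∃ c : ℂ, Metric.ball (p : ℂ) r ⊆ Tri b ∧
        ∀ᵐ q : ℂ, q ∈ Metric.ball (p : ℂ) r → H (q, θ) = c := by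
      intro p
      obtain ⟨r, hr, hsub⟩ := Metric.isOpen_iff.1 (isOpen_tri b) p p.2
      have hr4 : 0 < r / 4 := by linarith
      have hne : volume (Metric.ball (p : ℂ) (r / 4)) ≠ 0 :=
        (Metric.measure_ball_pos _ _ hr4).ne'
      obtain ⟨x, hx, hxq⟩ : ∃ x ∈ Metric.ball (p : ℂ) (r / 4), ∀ᵐ q : ℂ, R ((x, θ), q) := by
        by_contra hcon
        exact hne (measure_mono_null (fun x hx h => hcon ⟨x, hx, h⟩) (ae_iff.1 hθ))
      refine ⟨r / 4, hr4, H (x, θ), (Metric.ball_subset_ball (by linarith)).trans hsub, ?_⟩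
      filter_upwards [hxq] with q hq hqb
      simp only [Metric.mem_ball, dist_eq_norm] at hx hqb
      refine hq (hsub (by simp [dist_eq_norm]; linarith)) (hsub (by simp [dist_eq_norm]; linarith))
        (hsub ?_)
      simp only [Metric.mem_ball, dist_eq_norm, along, pos]
      set a := ((q - x) * (starRingEnd ℂ) (unitVec θ)).re with ha
      have habs : |a| ≤ ‖q - x‖ := by
        refine (Complex.abs_re_le_norm _).trans ?_
        rw [norm_mul, Complex.norm_conj, norm_unitVec, mul_one]
      calc ‖x + a • unitVec θ - ↑p‖ = ‖(x - ↑p) + a • unitVec θ‖ := by congr 1; ring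
        _ ≤ ‖x - ↑p‖ + ‖a • unitVec θ‖ := norm_add_le _ _
        _ < r := by
          rw [norm_smul, norm_unitVec, mul_one, Real.norm_eq_abs]
          have : ‖q - x‖ ≤ ‖q - ↑p‖ + ‖x - ↑p‖ := by
            calc ‖q - x‖ = ‖(q - ↑p) - (x - ↑p)‖ := by congr 1; ring
              _ ≤ _ := norm_sub_le _ _
          linarith
    choose r hr c hsub hc using hloc
    have hcst : IsLocallyConstant c := by
      rw [IsLocallyConstant.iff_exists_open]
      intro p
      refine ⟨Subtype.val ⁻¹' Metric.ball (p : ℂ) (r p), Metric.isOpen_ball.preimage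
        continuous_subtype_val, Metric.mem_ball_self (hr p), fun p' hp' => ?_⟩
      have hne : volume (Metric.ball (p : ℂ) (r p) ∩ Metric.ball (p' : ℂ) (r p')) ≠ 0 :=
        ((Metric.isOpen_ball.inter Metric.isOpen_ball).measure_pos (volume : Measure ℂ)
          ⟨(p' : ℂ), hp', Metric.mem_ball_self (hr p')⟩).ne'
      by_contra hne'
      refine hne (measure_mono_null ?_ (ae_iff.1 ((hc p).and (hc p'))))
      rintro q ⟨h1, h2⟩ ⟨e1, e2⟩
      exact hne' ((e2 h2).symm.trans (e1 h1))
    haveI : PreconnectedSpace (Tri b) :=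
      isPreconnected_iff_preconnectedSpace.1 (convex_tri b).isPreconnected
    obtain ⟨p0, hp0⟩ := tri_nonempty b
    refine ⟨c ⟨p0, hp0⟩, ?_⟩
    obtain ⟨S, hS, hSu⟩ := TopologicalSpace.isOpen_iUnion_countable
      (fun p : Tri b => Metric.ball (p : ℂ) (r p)) fun _ => Metric.isOpen_ball
    filter_upwards [(ae_ball_iff hS).2 fun p _ => hc p] with q hq hqT
    have : q ∈ ⋃ p ∈ S, Metric.ball (p : ℂ) (r p) := by
      rw [hSu]; exact mem_iUnion.2 ⟨⟨q, hqT⟩, Metric.mem_ball_self (hr _)⟩
    obtain ⟨p, hp, hqp⟩ := mem_iUnion₂.1 this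
    rw [hq p hp hqp]
    exact hcst.apply_eq_of_preconnectedSpace _ _
  -- choose a good base point
  let E : Dir × (ℂ × ℂ) → Prop := fun r => r.2.1 ∈ Tri b → r.2.2 ∈ Tri b →
    H (r.2.2, r.1) = H (r.2.1, r.1)
  have hEm : MeasurableSet {r | E r} := by
    have hT := (isOpen_tri b).measurableSet
    have e : {r | E r} = ((fun r : Dir × (ℂ × ℂ) => r.2.1) ⁻¹' Tri b)ᶜ ∪
        (((fun r : Dir × (ℂ × ℂ) => r.2.2) ⁻¹' Tri b)ᶜ ∪
        {r | H (r.2.2, r.1) = H (r.2.1, r.1)}) := by
      ext r; simp [E, imp_iff_not_or]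
    rw [e]
    refine ((?_ : Measurable _) hT).compl.union (((?_ : Measurable _) hT).compl.union
      (measurableSet_eq_fun ?_ ?_)) <;> fun_prop
  have h9 : ∀ᵐ r : Dir × (ℂ × ℂ), E r := by
    rw [Measure.volume_eq_prod]
    refine (Measure.ae_prod_iff_ae_ae hEm).2 ?_
    filter_upwards [h8] with θ ⟨c, hc⟩
    rw [Measure.volume_eq_prod]
    refine (Measure.ae_prod_iff_ae_ae ((show Measurable fun r : ℂ × ℂ => (θ, r) by fun_prop) hEm)).2 ?_
    filter_upwards [hc] with x hx
    filter_upwards [hc] with q hq h0 h0'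
    rw [hq h0', hx h0]
  have h10 : ∀ᵐ r : ℂ × (ℂ × Dir), E (r.2.2, (r.1, r.2.1)) := by
    have hmp : MeasurePreserving (fun r : ℂ × (ℂ × Dir) => (r.2.2, (r.1, r.2.1)))
        (volume : Measure (ℂ × (ℂ × Dir))) (volume : Measure (Dir × (ℂ × ℂ))) := by
      have e1 : MeasurePreserving (fun r : ℂ × (ℂ × Dir) => ((r.1, r.2.1), r.2.2))
          ((volume : Measure ℂ).prod ((volume : Measure ℂ).prod (volume : Measure Dir)))
          (((volume : Measure ℂ).prod (volume : Measure ℂ)).prod (volume : Measure Dir)) :=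
        (measurePreserving_prodAssoc _ _ _).symm _
      exact Measure.measurePreserving_swap.comp e1
    exact hmp.quasiMeasurePreserving.ae h9
  obtain ⟨x0, hx0, hx0'⟩ : ∃ x ∈ Tri b, ∀ᵐ z : ℂ × Dir, E (z.2, (x, z.1)) := by
    by_contra hcon
    exact ((isOpen_tri b).measure_pos (volume : Measure ℂ) (tri_nonempty b)).ne'
      (measure_mono_null (fun x hx h => hcon ⟨x, hx, h⟩)
        (ae_iff.1 (Measure.ae_ae_of_ae_prod (show ∀ᵐ r ∂(volume : Measure ℂ).prod
          (volume : Measure (ℂ × Dir)), E (r.2.2, (r.1, r.2.1)) from h10))))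
  refine ⟨fun θ => H (x0, θ), by fun_prop, ?_⟩
  filter_upwards [hx0'] with z hz hz0
  have := hz hx0 hz0
  simp only [hH] at this ⊢
  rw [← this, div_mul_cancel₀ _ (wave_ne_zero _ _)]

/-- invariance of the unfolded eigenfunction under a motion -/
def Inv (f : Dir → ℂ) (lam : ℝ) (g : ℂ → ℂ) (σ : Dir → Dir) : Prop :=
  ∀ᵐ θ : Dir, ∀ p, f (σ θ) * wave lam (g p, σ θ) = f θ * wave lam (p, θ)

lemma Inv.comp {f : Dir → ℂ} {lam : ℝ} {g g' : ℂ → ℂ} {σ σ' : Dir → Dir}
    (h : Inv f lam g σ) (h' : Inv f lam g' σ')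
    (hσ : MeasurePreserving σ (volume : Measure Dir) volume) :
    Inv f lam (g' ∘ g) (σ' ∘ σ) := by
  filter_upwards [h, hσ.quasiMeasurePreserving.ae h'] with θ h1 h2 p
  exact (h2 (g p)).trans (h1 p)

lemma inv_refl {F : ℂ × Dir → ℂ} {lam : ℝ} (hE : Eig b F lam) {f : Dir → ℂ}
    (hf : ∀ᵐ z : ℂ × Dir, z ∈ Phase b → F z = f z.2 * wave lam z) (i : Fin 3) :
    Inv f lam (refl b i) (mirror b i) := by
  have hwave : ∀ (θ : Dir) (p p' : ℂ),
      wave lam (refl b i p, mirror b i θ) * wave lam (p', θ) =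
        wave lam (refl b i p', mirror b i θ) * wave lam (p, θ) := by
    intro θ p p'
    have hh : ∀ q, ⟪refl b i q, unitVec (mirror b i θ)⟫ =
        ⟪b (i + 1), unitVec (mirror b i θ)⟫ + ⟪q, unitVec θ⟫ - ⟪b (i + 1), unitVec θ⟫ := by
      intro q
      rw [unitVec_mirror, refl, inner_add_left, LinearIsometryEquiv.inner_map_map, inner_sub_left]
      ring
    simp only [wave, ← Complex.exp_add, hh]
    congr 1; push_cast; ring
  have hhalf : ∀ᵐ θ : Dir, lin b i (unitVec θ) < 0 →
      ∀ p, f (mirror b i θ) * wave lam (refl b i p, mirror b i θ) = f θ * wave lam (p, θ) := by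
    have hae : ∀ t : ℚ, ∀ᵐ θ : Dir, ∀ᵐ x : ℂ, (0 : ℝ) < t → x ∈ Tri b →
        Good b [i] (x, θ) 0 t →
        F (endState b [i] t (x, θ)) = cexp (((lam * t : ℝ) : ℂ) * I) * F (x, θ) ∧
          F (x, θ) = f θ * wave lam (x, θ) ∧
          F (endState b [i] t (x, θ)) = f (mirror b i θ) * wave lam (endState b [i] t (x, θ)) := by
      intro t
      have h : ∀ᵐ z : ℂ × Dir, (0 : ℝ) < t → z ∈ Phase b → Good b [i] z 0 t →
          F (endState b [i] t z) = cexp (((lam * t : ℝ) : ℂ) * I) * F z ∧
          F z = f z.2 * wave lam z ∧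
          F (endState b [i] t z) = f (mirror b i z.2) * wave lam (endState b [i] t z) := by
        by_cases ht : (0 : ℝ) < t
        · filter_upwards [hE t ht [i], hf,
            (mp_endState b [i] t).quasiMeasurePreserving.ae hf] with z h1 h2 h3 _ hz hg
          exact ⟨h1 hz hg, h2 hz, h3 (hg.end_mem b)⟩
        · exact ae_of_all _ fun z h => absurd h ht
      have hsw : ∀ᵐ r ∂(volume : Measure Dir).prod (volume : Measure ℂ),
          (0 : ℝ) < t → r.swap ∈ Phase b → Good b [i] r.swap 0 t →
          F (endState b [i] t r.swap) = cexp (((lam * t : ℝ) : ℂ) * I) * F r.swap ∧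
          F r.swap = f r.swap.2 * wave lam r.swap ∧
          F (endState b [i] t r.swap) =
            f (mirror b i r.swap.2) * wave lam (endState b [i] t r.swap) :=
        Measure.measurePreserving_swap.quasiMeasurePreserving.ae h
      exact Measure.ae_ae_of_ae_prod hsw
    filter_upwards [ae_all_iff.2 hae] with θ hθ hl p
    set e := unitVec θ with he
    set m : ℂ := (1 / 2 : ℝ) • b (i + 1) + (1 / 2 : ℝ) • b (i + 2) with hm
    obtain ⟨hm0, hmj⟩ := coord_openSide b i m
      ⟨1 / 2, 1 / 2, by norm_num, by norm_num, by norm_num, rfl⟩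
    have hsmall : ∀ᶠ ε in 𝓝 (0 : ℝ), ∀ j, j ≠ i →
        0 < b.coord j (m - ε • e) ∧ 0 < b.coord j (m + ε • linRefl b i e) := by
      refine eventually_all.2 fun j => ?_
      by_cases hj : j = i
      · exact Eventually.of_forall fun _ h => absurd hj h
      · have c1 : Continuous fun ε : ℝ => b.coord j (m - ε • e) :=
          (continuous_coord b j).comp (by fun_prop)
        have c2 : Continuous fun ε : ℝ => b.coord j (m + ε • linRefl b i e) :=
          (continuous_coord b j).comp (by fun_prop)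
        have v1 : 0 < b.coord j (m - (0 : ℝ) • e) := by simpa using hmj j hj
        have v2 : 0 < b.coord j (m + (0 : ℝ) • linRefl b i e) := by simpa using hmj j hj
        filter_upwards [(c1.tendsto 0).eventually (Ioi_mem_nhds v1),
          (c2.tendsto 0).eventually (Ioi_mem_nhds v2)] with ε h1 h2 _
        exact ⟨h1, h2⟩
    obtain ⟨δ, hδ, hball⟩ := Metric.eventually_nhds_iff.1 hsmall
    obtain ⟨q, hq0, hqδ⟩ := exists_rat_btwn hδ
    have hεp : (0 : ℝ) < q / 2 := by linarith
    set ε : ℝ := q / 2 with hε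
    have hεδ := hball (y := ε) (by rw [Real.dist_eq, sub_zero, abs_of_pos hεp]; linarith)
    have hci : b.coord i (m - ε • e) = -(ε * lin b i e) := by
      rw [sub_eq_add_neg, ← neg_smul, coord_add_smul, hm0]; ring
    have hx0T : m - ε • e ∈ Tri b := by
      intro j
      by_cases hj : j = i
      · subst hj; rw [hci]; nlinarith
      · exact (hεδ j hj).1
    have hgood : Good b [i] (m - ε • e, θ) 0 q := by
      have htau : tau b i (m - ε • e, θ) = ε := by
        rw [tau]; simp only [← he, hci]; field_simp [hl.ne]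
      refine ⟨hl, by rw [htau]; exact hεp, fun j hj => ?_, by rw [htau, hε]; linarith, fun j => ?_⟩
      · rw [htau]
        simpa [pos, ← he] using hmj j hj
      · have e2 : pos (fold1 b i (m - ε • e, θ)) q = m + ε • linRefl b i e := by
          rw [pos_fold1]
          have : pos (m - ε • e, θ) q = m + ε • e := by
            simp only [pos, ← he, show (q : ℝ) = ε + ε by rw [hε]; ring, add_smul]; ring
          rw [this, refl_add, map_smul, refl_eq_self b i m hm0]
        rw [e2]
        by_cases hj : j = i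
        · subst hj; rw [coord_add_smul, hm0, lin_linRefl]; nlinarith
        · exact (hεδ j hj).2
    set U := {x : ℂ | x ∈ Tri b ∧ Good b [i] (x, θ) 0 q} with hU
    have hUo : IsOpen U := (isOpen_tri b).inter
      ((isOpen_good_slice b [i] q).preimage (continuous_id.prodMk continuous_const))
    obtain ⟨x, hx, hx'⟩ : ∃ x ∈ U, (0 : ℝ) < q → x ∈ Tri b → Good b [i] (x, θ) 0 q →
        F (endState b [i] q (x, θ)) = cexp (((lam * q : ℝ) : ℂ) * I) * F (x, θ) ∧
          F (x, θ) = f θ * wave lam (x, θ) ∧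
          F (endState b [i] q (x, θ)) =
            f (mirror b i θ) * wave lam (endState b [i] q (x, θ)) := by
      by_contra hcon
      exact (hUo.measure_pos (volume : Measure ℂ) ⟨_, hx0T, hgood⟩).ne'
        (measure_mono_null (fun x hx h => hcon ⟨x, hx, h⟩) (ae_iff.1 (hθ q)))
    obtain ⟨h1, h2, h3⟩ := hx' hq0 hx.1 hx.2
    rw [h3, h2] at h1
    have hend : endState b [i] q (x, θ) = (refl b i (pos (x, θ) q), mirror b i θ) :=
      Prod.ext (pos_fold1 b i _ _) rfl
    rw [hend, ← mul_assoc, mul_comm (cexp _) (f θ), mul_assoc, ← wave_along] at h1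
    apply mul_right_cancel₀ (wave_ne_zero lam (pos (x, θ) q, θ))
    change f (mirror b i θ) * wave lam (refl b i (pos (x, θ) q), mirror b i θ) =
      f θ * wave lam (pos (x, θ) q, θ) at h1
    linear_combination (f (mirror b i θ)) * hwave θ p (pos (x, θ) q) + wave lam (p, θ) * h1
  have hzero := (countable_unitVec_level (lin b i) (lin_ne_zero b i) 0).ae_notMem
    (volume : Measure Dir)
  filter_upwards [hhalf, (mp_mirror b i).quasiMeasurePreserving.ae hhalf, hzero]
    with θ h1 h2 h3 p
  rcases lt_trichotomy (lin b i (unitVec θ)) 0 with h | h | h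
  · exact h1 h p
  · exact absurd h h3
  · have := h2 (by rw [unitVec_mirror, lin_linRefl]; linarith) (refl b i p)
    rw [mirror_mirror, refl_refl] at this
    exact this.symm

/-- the direction shift of the composition of two reflections -/
def turnAngle (i j : Fin 3) : ℝ :=
  2 * Complex.arg (sideVec b j) - 2 * Complex.arg (sideVec b i)

lemma mirror_mirror' (i j : Fin 3) (θ : Dir) :
    mirror b j (mirror b i θ) = θ + (turnAngle b i j : Dir) := by
  simp [mirror_apply, turnAngle]; abel

lemma linRefl_linRefl' (i j : Fin 3) (v : ℂ) :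
    linRefl b j (linRefl b i v) = unitVec (turnAngle b i j : Dir) * v := by
  simp only [linRefl_apply, map_mul, Complex.conj_conj, mirrorRot, unitVec_coe, turnAngle,
    Circle.coe_exp, ← Complex.exp_conj, Complex.conj_ofReal, Complex.conj_I, ← mul_assoc,
    ← Complex.exp_add]
  congr 2; push_cast; ring

lemma lin_sideVec_ne (i j : Fin 3) (h : i ≠ j) : lin b j (sideVec b i) ≠ 0 := by
  have hc := coord_eq b j (b (i + 2)) (b (i + 1))
  rcases fin3_cases i j h.symm with rfl | rfl
  · rw [b.coord_apply_eq, b.coord_apply_ne (fin3_ne i).2.2] at hc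
    unfold sideVec; linarith
  · rw [b.coord_apply_eq, b.coord_apply_ne (fin3_ne i).2.2.symm] at hc
    unfold sideVec; linarith

lemma turnAngle_ne (i j : Fin 3) (h : i ≠ j) : unitVec (turnAngle b i j : Dir) ≠ 1 := by
  intro h1
  have h2 := linRefl_linRefl' b i j (sideVec b i)
  rw [h1, one_mul, linRefl_sideVec] at h2
  have h3 := lin_linRefl b j (sideVec b i)
  rw [h2] at h3
  exact lin_sideVec_ne b i j h (by linarith)

/-- rotation about the common vertex `k` of two sides -/
def rot (k : Fin 3) (p : ℂ) : ℂ :=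
  b k + unitVec (turnAngle b (k + 1) (k + 2) : Dir) * (p - b k)

lemma refl_refl' (k : Fin 3) (p : ℂ) : refl b (k + 2) (refl b (k + 1) p) = rot b k p := by
  have f1 : refl b (k + 1) (b k) = b k :=
    refl_eq_self b _ _ (b.coord_apply_ne (fin3_ne k).1)
  have f2 : refl b (k + 2) (b k) = b k :=
    refl_eq_self b _ _ (b.coord_apply_ne (fin3_ne k).2.1)
  calc refl b (k + 2) (refl b (k + 1) p)
      = refl b (k + 2) (refl b (k + 1) (b k + (p - b k))) := by rw [add_sub_cancel]
    _ = _ := by rw [refl_add, f1, refl_add, f2, linRefl_linRefl']; rfl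

lemma inv_rot {F : ℂ × Dir → ℂ} {lam : ℝ} (hE : Eig b F lam) {f : Dir → ℂ}
    (hf : ∀ᵐ z : ℂ × Dir, z ∈ Phase b → F z = f z.2 * wave lam z) (k : Fin 3) :
    Inv f lam (rot b k) (fun θ => θ + (turnAngle b (k + 1) (k + 2) : Dir)) := by
  have := (inv_refl b hE hf (k + 1)).comp (inv_refl b hE hf (k + 2)) (mp_mirror b (k + 1))
  convert this using 1
  · ext p; exact (refl_refl' b k p).symm
  · ext θ; exact (mirror_mirror' b _ _ θ).symm

/-- A triangle with some corner giving an irrational turn. -/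
def IrrTurn : Prop := ∃ k : Fin 3, addOrderOf (turnAngle b (k + 1) (k + 2) : Dir) = 0

/-- Rigidity of eigenfunctions of bounded angular variation. -/
theorem eig_const {F : ℂ × Dir → ℂ} (hF : Measurable F) {lam : ℝ} (hE : Eig b F lam)
    {C : ℝ≥0∞} (hC : C ≠ ⊤) (hM : Modulus b F C) (hN : ∫⁻ z in Phase b, ‖F z‖ₑ ≠ ⊤)
    (hirr : IrrTurn b) :
    ∃ c : ℂ, (∀ᵐ z : ℂ × Dir, z ∈ Phase b → F z = c) ∧ (lam ≠ 0 → c = 0) := by
  obtain ⟨f, hfm, hf⟩ := exists_profile b hF hE (sideStep_invariant b hF hE hC hM hN)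
  have hsnd : ∀ {P : Dir → Prop}, (∀ᵐ θ : Dir, P θ) → ∀ᵐ z : ℂ × Dir, P z.2 := fun h => by
    rw [Measure.volume_eq_prod]
    exact (Measure.quasiMeasurePreserving_snd (μ := (volume : Measure ℂ))).ae h
  rcases eq_or_ne lam 0 with rfl | hlam
  · obtain ⟨k, hk⟩ := hirr
    set c : Dir := ↑(turnAngle b (k + 1) (k + 2))
    have herg : Ergodic (c + · : Dir → Dir) := AddCircle.ergodic_add_left.2 hk
    have hinv : f ∘ (c + ·) =ᵐ[volume] f := by
      filter_upwards [inv_rot b hE hf k] with θ hθ
      have := hθ 0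
      simp only [wave, zero_mul, Complex.ofReal_zero, Complex.exp_zero, mul_one] at this
      simpa [add_comm] using this
    obtain ⟨a, ha⟩ := herg.ae_eq_const_of_ae_eq_comp₀ hfm.nullMeasurable
      hinv
    refine ⟨a, ?_, fun h => absurd rfl h⟩
    filter_upwards [hf, hsnd ha] with z hz hz' h0
    rw [hz h0, hz']
    simp [wave, Function.const]
  · refine ⟨0, ?_, fun _ => rfl⟩
    -- the commutator of two corner rotations is a nonzero translation
    let k0 : Fin 3 := 0
    let k1 : Fin 3 := 1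
    set c0 : Dir := ↑(turnAngle b (k0 + 1) (k0 + 2))
    set c1 : Dir := ↑(turnAngle b (k1 + 1) (k1 + 2))
    have h0 := inv_rot b hE hf k0
    have h1 := inv_rot b hE hf k1
    have h01 := h0.comp h1 (measurePreserving_add_right volume c0)
    have h10 := h1.comp h0 (measurePreserving_add_right volume c1)
    set v : ℂ := (1 - unitVec c0) * (1 - unitVec c1) * (b k0 - b k1) with hv
    have hvne : v ≠ 0 := by
      refine mul_ne_zero (mul_ne_zero ?_ ?_) ?_
      · exact sub_ne_zero.2 (Ne.symm (turnAngle_ne b _ _ (by decide)))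
      · exact sub_ne_zero.2 (Ne.symm (turnAngle_ne b _ _ (by decide)))
      · exact sub_ne_zero.2 fun h => absurd (b.ind.injective h) (by decide)
    have hdiff : ∀ p, rot b k0 (rot b k1 p) = rot b k1 (rot b k0 p) + v := by
      intro p; simp only [rot, hv]; ring
    have hlev : ({θ : Dir | ∃ n : ℤ,
        innerₗ ℂ v (unitVec θ) = n * (2 * Real.pi) / lam}).Countable := by
      simp only [Set.setOf_exists]
      exact countable_iUnion fun n => countable_unitVec_level (innerₗ ℂ v)
        ⟨v, by rw [innerₗ_apply_apply]; exact inner_self_ne_zero.2 hvne⟩ _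
    have hkey : ∀ᵐ θ : Dir, f (θ + c0 + c1) = 0 := by
      filter_upwards [h01, h10,
        (measurePreserving_add_right (volume : Measure Dir) (c0 + c1)).quasiMeasurePreserving.ae
          (hlev.ae_notMem volume)] with θ e01 e10 hn
      have a1 := e01 0
      have a2 := e10 0
      simp only [Function.comp_apply] at a1 a2
      rw [hdiff] at a2
      rw [show θ + c1 + c0 = θ + c0 + c1 by abel] at a2
      set q := rot b k1 (rot b k0 0)
      set θ' := θ + c0 + c1 with hθ'
      have h := a2.trans a1.symm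
      have hw : wave lam (q + v, θ') =
          cexp (((lam * ⟪v, unitVec θ'⟫ : ℝ) : ℂ) * I) * wave lam (q, θ') := by
        rw [wave, wave, ← Complex.exp_add, inner_add_left]; congr 1; push_cast; ring
      rw [hw] at h
      by_contra hne
      have hone : cexp (((lam * ⟪v, unitVec θ'⟫ : ℝ) : ℂ) * I) = 1 := by
        have h2 := mul_left_cancel₀ hne h
        exact mul_left_eq_self₀.1 h2 |>.resolve_right (wave_ne_zero _ _)
      obtain ⟨n, hn'⟩ := Complex.exp_eq_one_iff.1 hone
      refine hn ⟨n, ?_⟩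
      rw [← mul_assoc] at hn'
      have hi := mul_right_cancel₀ Complex.I_ne_zero hn'
      have hi' : lam * ⟪v, unitVec θ'⟫ = n * (2 * Real.pi) := by exact_mod_cast hi
      rw [innerₗ_apply_apply, ← add_assoc θ c0 c1, ← hθ', eq_div_iff hlam]
      linarith
    have hf0 : ∀ᵐ θ : Dir, f θ = 0 := by
      filter_upwards [(measurePreserving_add_right (volume : Measure Dir)
        (-(c0 + c1))).quasiMeasurePreserving.ae hkey] with θ hθ
      rwa [show θ + -(c0 + c1) + c0 + c1 = θ by abel] at hθ
    filter_upwards [hf, hsnd hf0] with z hz hz' h0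
    rw [hz h0, hz', zero_mul]

end

end Vale.Agent.P099
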