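import Vale.Agent.P099.Meas

/-! The shear inequality: an eigenfunction of bounded angular variation is invariant under
orthogonal translations. -/

namespace Vale.Agent.P099

open MeasureTheory Complex Set Filter Topology
open scoped ENNReal

noncomputable section

attribute [-simp] Complex.real_smul

variable (b : AffineBasis (Fin 3) ℝ ℂ)

/-- `F` is an eigenfunction for the billiard flow, in unfolded form. -/
def Eig (F : ℂ × Dir → ℂ) (lam : ℝ) : Prop :=
  ∀ t, 0 < t → ∀ w, ∀ᵐ z : ℂ × Dir, z ∈ Phase b → Good b w z 0 t →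
    F (endState b w t z) = cexp (((lam * t : ℝ) : ℂ) * I) * F z

/-- angular increment -/
def dTheta (F : ℂ × Dir → ℂ) (u : ℝ) (z : ℂ × Dir) : ℝ≥0∞ := ‖F (spin u z) - F z‖ₑ

/-- angular bounded variation -/
def Modulus (F : ℂ × Dir → ℂ) (C : ℝ≥0∞) : Prop :=
  ∀ u : ℝ, ∫⁻ z in Phase b, dTheta F u z ≤ C * ENNReal.ofReal |u|

lemma measurable_dTheta {F : ℂ × Dir → ℂ} (hF : Measurable F) (u : ℝ) :
    Measurable (dTheta F u) := by
  have := (mp_spin u).measurable
  unfold dTheta; fun_prop

lemma setLIntegral_comp_mp {f : ℂ × Dir → ℝ≥0∞} (hf : Measurable f) {g : ℂ × Dir → ℂ × Dir}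
    (hg : MeasurePreserving g volume volume) {s t : Set (ℂ × Dir)} (ht : MeasurableSet t)
    (hst : s ⊆ g ⁻¹' t) : ∫⁻ z in s, f (g z) ≤ ∫⁻ z in t, f z :=
  (lintegral_mono_set hst).trans (hg.setLIntegral_comp_preimage ht hf).le

lemma fold_spin (w : List (Fin 3)) :
    ∀ v : ℝ, ∀ z : ℂ × Dir, fold b w (spin v z) = spin v (fold b w z) ∨
      fold b w (spin v z) = spin (-v) (fold b w z) := by
  induction w with
  | nil => exact fun v z => Or.inl rfl
  | cons i w ih =>
    intro v z
    have h : fold1 b i (spin v z) = spin (-v) (fold1 b i z) := by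
      refine Prod.ext rfl ?_
      show mirror b i (z.2 + (v : Dir)) = mirror b i z.2 + ((-v : ℝ) : Dir)
      rw [mirror_add, AddCircle.coe_neg, sub_eq_add_neg]
    rw [fold_cons, fold_cons, h]
    simpa [or_comm] using ih (-v) (fold1 b i z)

lemma abs_arctan_le (x : ℝ) : |Real.arctan x| ≤ |x| := by
  have key : ∀ y : ℝ, 0 ≤ y → Real.arctan y ≤ y := fun y hy => by
    have := Real.le_tan (Real.arctan_nonneg.2 hy) (Real.arctan_lt_pi_div_two y)
    rwa [Real.tan_arctan] at this
  rcases le_total 0 x with h | h
  · rw [abs_of_nonneg h, abs_of_nonneg (Real.arctan_nonneg.2 h)]; exact key x h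
  · rw [abs_of_nonpos h, abs_of_nonpos (Real.arctan_le_zero.2 h), ← Real.arctan_neg]
    exact key (-x) (by linarith)

/-- flight time of the tilted segment -/
def tiltTime (T d : ℝ) : ℝ := √(T ^ 2 + d ^ 2)

/-- angle of the tilted segment -/
def tilt (T d : ℝ) : ℝ := Real.arctan (d / T)

/-- the tilted partner state -/
def partner (T d : ℝ) (z : ℂ × Dir) : ℂ × Dir := spin (-tilt T d) (sideStep d z)

lemma pos_partner {T : ℝ} (hT : 0 < T) (d : ℝ) (z : ℂ × Dir) :
    pos (partner T d z) (tiltTime T d) = pos z T := by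
  have hS : tiltTime T d = T * √(1 + (d / T) ^ 2) := by
    rw [tiltTime]
    conv_rhs => rw [← Real.sqrt_sq hT.le, ← Real.sqrt_mul (sq_nonneg T)]
    rw [Real.sqrt_sq hT.le]
    congr 1; field_simp
  have hpos : (0 : ℝ) < √(1 + (d / T) ^ 2) := by positivity
  have hc : tiltTime T d * Real.cos (tilt T d) = T := by
    rw [hS, tilt, Real.cos_arctan]; field_simp
  have hs : tiltTime T d * Real.sin (tilt T d) = d := by
    rw [hS, tilt, Real.sin_arctan]; field_simp
  simp only [pos, partner, spin, sideStep, AddCircle.coe_neg, unitVec_add, unitVec_neg,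
    unitVec_coe, ← Complex.exp_conj, map_mul, Complex.conj_ofReal, Complex.conj_I,
    Complex.real_smul]
  rw [show ((tilt T d : ℝ) : ℂ) * -I = ((-(tilt T d) : ℝ) : ℂ) * I by push_cast; ring,
    Complex.exp_mul_I, ← Complex.ofReal_cos, ← Complex.ofReal_sin, Real.cos_neg, Real.sin_neg]
  have hcC := congrArg (fun r : ℝ => (r : ℂ)) hc
  have hsC := congrArg (fun r : ℝ => (r : ℂ)) hs
  push_cast at hcC hsC ⊢
  linear_combination (unitVec z.2) * hcC - (unitVec z.2 * I) * hsC

/-- pairs of states whose straight lines meet after flight times `T`, `tiltTime T d`, with the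
same code -/
def PairW (T d : ℝ) (w : List (Fin 3)) : Set (ℂ × Dir) :=
  {z | z ∈ Phase b ∧ sideStep d z ∈ Phase b ∧ Good b w z 0 T ∧
    Good b w (partner T d z) 0 (tiltTime T d)}

/-- all such pairs -/
def Pair (T d : ℝ) : Set (ℂ × Dir) := ⋃ w, PairW b T d w

lemma continuous_partner (T : ℝ) (hT : 0 < T) :
    Continuous fun q : ℝ × (ℂ × Dir) => partner T q.1 q.2 := by
  have h1 : Continuous fun q : ℝ × (ℂ × Dir) => ((-tilt T q.1 : ℝ) : Dir) := by
    have : Continuous fun q : ℝ × (ℂ × Dir) => -tilt T q.1 := by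
      unfold tilt; fun_prop
    exact (continuous_quotient_mk'.comp this)
  exact (continuous_sideStep.fst).prodMk (continuous_snd.snd.add h1)

lemma isOpen_pairW {T : ℝ} (hT : 0 < T) (w : List (Fin 3)) :
    IsOpen {q : ℝ × (ℂ × Dir) | q.2 ∈ PairW b T q.1 w} := by
  have h1 : IsOpen {q : ℝ × (ℂ × Dir) | q.2 ∈ Phase b} :=
    (isOpen_phase b).preimage continuous_snd
  have h2 : IsOpen {q : ℝ × (ℂ × Dir) | sideStep q.1 q.2 ∈ Phase b} :=
    (isOpen_phase b).preimage continuous_sideStep
  have h3 : IsOpen {q : ℝ × (ℂ × Dir) | Good b w q.2 0 T} :=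
    (isOpen_good_slice b w T).preimage continuous_snd
  have h4 : IsOpen {q : ℝ × (ℂ × Dir) | Good b w (partner T q.1 q.2) 0 (tiltTime T q.1)} := by
    have hc : Continuous fun q : ℝ × (ℂ × Dir) => tiltTime T q.1 := by
      unfold tiltTime; fun_prop
    exact (isOpen_good b w).preimage
      ((continuous_partner T hT).prodMk ((continuous_const (y := (0 : ℝ))).prodMk hc))
  exact h1.inter (h2.inter (h3.inter h4))

lemma isOpen_pairW_slice {T : ℝ} (hT : 0 < T) (d : ℝ) (w : List (Fin 3)) :
    IsOpen (PairW b T d w) :=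
  (isOpen_pairW b hT w).preimage (continuous_const.prodMk continuous_id)

/-- one shear step -/
lemma step {F : ℂ × Dir → ℂ} (hF : Measurable F) {lam : ℝ} (hE : Eig b F lam) {C : ℝ≥0∞}
    (hM : Modulus b F C) {T : ℝ} (hT : 0 < T) (d : ℝ) :
    ∫⁻ z in Pair b T d, ‖F (sideStep d z) - F z‖ₑ ≤
      3 * C * ENNReal.ofReal (|d| / T) +
        ENNReal.ofReal (|lam| * d ^ 2 / T) * ∫⁻ z in Phase b, ‖F z‖ₑ := by
  set u := tilt T d with hu
  set T' := tiltTime T d with hT'
  have hT'pos : 0 < T' := by rw [hT', tiltTime]; positivity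
  have hu_le : |u| ≤ |d| / T := by
    refine (abs_arctan_le _).trans_eq ?_
    rw [abs_div, abs_of_pos hT]
  have hTT : |T' - T| ≤ d ^ 2 / T := by
    have h1 : T ≤ T' := Real.le_sqrt_of_sq_le (by nlinarith)
    have h2 : T' * T' = T ^ 2 + d ^ 2 := Real.mul_self_sqrt (by positivity)
    rw [abs_of_nonneg (by linarith), le_div_iff₀ hT]
    nlinarith
  set c := ENNReal.ofReal (|lam| * d ^ 2 / T) with hc
  let H : ℂ × Dir → ℝ≥0∞ := fun a => dTheta F u a + dTheta F (-u) a + c * ‖F a‖ₑ
  have hH : Measurable H :=
    ((measurable_dTheta hF u).add (measurable_dTheta hF (-u))).add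
      (measurable_const.mul hF.enorm)
  let V : List (Fin 3) → Set (ℂ × Dir) :=
    fun w => {a | a ∈ Phase b ∧ Good b w.reverse (turn a) 0 T}
  have hVm : ∀ w, MeasurableSet (V w) := fun w =>
    ((isOpen_phase b).inter ((isOpen_good_slice b _ T).preimage continuous_turn)).measurableSet
  have hVd : Pairwise (Function.onFun Disjoint V) := by
    intro w v hwv
    exact Set.disjoint_left.2 fun a ha ha' =>
      hwv (List.reverse_injective (Good.unique b ha.2 ha'.2))
  have hpiece : ∀ w, ∫⁻ z in PairW b T d w, ‖F (partner T d z) - F z‖ₑ ≤ ∫⁻ a in V w, H a := by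
    intro w
    have hmp : MeasurePreserving (partner T d) (volume : Measure (ℂ × Dir)) volume :=
      (mp_spin _).comp (mp_sideStep d)
    have e1 := hE T hT w
    have e2 := hmp.quasiMeasurePreserving.ae (hE T' hT'pos w)
    calc ∫⁻ z in PairW b T d w, ‖F (partner T d z) - F z‖ₑ
        ≤ ∫⁻ z in PairW b T d w, H (endState b w T z) := by
          refine lintegral_mono_ae ?_
          filter_upwards [ae_restrict_of_ae e1, ae_restrict_of_ae e2,
            ae_restrict_mem (isOpen_pairW_slice b hT d w).measurableSet] with z h1 h2 hz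
          obtain ⟨hz0, hz1, hg, hg'⟩ := hz
          have hf1 := h1 hz0 hg
          have hf2 := h2 hz1 hg'
          set a := endState b w T z with ha
          have hend : ∃ v, (v = u ∨ v = -u) ∧ endState b w T' (partner T d z) = spin v a := by
            have hpos : pos (fold b w (partner T d z)) T' = pos (fold b w z) T := by
              rw [pos_fold, pos_fold, hT', pos_partner hT]
              exact fold_fst b w _ _ _
            have hz2 : (fold b w (partner T d z)).2 = (fold b w (spin (-u) z)).2 := by
              have key : ∀ (w : List (Fin 3)) (x y : ℂ) (θ : Dir),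
                  (fold b w (x, θ)).2 = (fold b w (y, θ)).2 := by
                intro w
                induction w with
                | nil => intros; rfl
                | cons i w ih => intro x y θ; exact ih _ _ _
              exact key w _ _ _
            rcases fold_spin b w (-u) z with h | h
            · exact ⟨-u, Or.inr rfl, Prod.ext hpos (hz2.trans (by rw [h]; rfl))⟩
            · exact ⟨u, Or.inl rfl, Prod.ext hpos (hz2.trans (by rw [h, neg_neg]; rfl))⟩
          obtain ⟨v, hv, hva⟩ := hend
          rw [hva] at hf2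
          set p := cexp (((lam * T : ℝ) : ℂ) * I) with hp
          set p' := cexp (((lam * T' : ℝ) : ℂ) * I) with hp'
          have hn : ‖p‖ = 1 := Complex.norm_exp_ofReal_mul_I _
          have hn' : ‖p'‖ = 1 := Complex.norm_exp_ofReal_mul_I _
          have hpp : ‖p - p'‖ ≤ |lam| * d ^ 2 / T := by
            have : p - p' = p' * (cexp (I * ((lam * (T - T') : ℝ) : ℂ)) - 1) := by
              rw [mul_sub, mul_one, hp, hp', ← Complex.exp_add]; congr 2; push_cast; ring
            rw [this, norm_mul, hn', one_mul]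
            refine Real.norm_exp_I_mul_ofReal_sub_one_le.trans ?_
            rw [Real.norm_eq_abs, abs_mul, mul_div_assoc, abs_sub_comm]
            exact mul_le_mul_of_nonneg_left hTT (abs_nonneg _)
          have key : ‖F (partner T d z) - F z‖ ≤
              ‖F (spin v a) - F a‖ + |lam| * d ^ 2 / T * ‖F a‖ := by
            rw [hf1, hf2]
            set A := F (partner T d z)
            set B := F z
            have e : A - B = ((p' * A - p * B) + (p - p') * B) / p' := by
              rw [eq_div_iff (Complex.exp_ne_zero _)]; ring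
            rw [e, norm_div, hn', div_one, norm_mul p, hn, one_mul]
            refine (norm_add_le _ _).trans ?_
            rw [norm_mul]
            gcongr
          calc ‖F (partner T d z) - F z‖ₑ
              = ENNReal.ofReal ‖F (partner T d z) - F z‖ := (ofReal_norm _).symm
            _ ≤ ENNReal.ofReal (‖F (spin v a) - F a‖ + |lam| * d ^ 2 / T * ‖F a‖) :=
                ENNReal.ofReal_le_ofReal key
            _ = dTheta F v a + c * ‖F a‖ₑ := by
                rw [ENNReal.ofReal_add (norm_nonneg _) (by positivity),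
                  ENNReal.ofReal_mul (by positivity), ofReal_norm, ofReal_norm]
                rfl
            _ ≤ H a := by
                show dTheta F v a + c * ‖F a‖ₑ ≤ dTheta F u a + dTheta F (-u) a + c * ‖F a‖ₑ
                gcongr
                rcases hv with rfl | rfl
                · exact le_self_add
                · exact le_add_self
      _ ≤ ∫⁻ a in V w, H a := setLIntegral_comp_mp hH (mp_endState b w T) (hVm w)
          fun z hz => ⟨hz.2.2.1.end_mem b, hz.2.2.1.reverse b hz.1⟩
  have hsplit : ∀ z, ‖F (sideStep d z) - F z‖ₑ ≤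
      dTheta F (-u) (sideStep d z) + ‖F (partner T d z) - F z‖ₑ := by
    intro z
    rw [dTheta, ← enorm_neg (F (spin (-u) (sideStep d z)) - _)]
    refine le_trans (le_of_eq ?_) (enorm_add_le _ _)
    congr 1; show _ = _; simp [partner, hu]
  have hmeas : Measurable fun z => dTheta F (-u) (sideStep d z) :=
    (measurable_dTheta hF _).comp (mp_sideStep d).measurable
  have hmod : ∀ v : ℝ, |v| = |u| → ∫⁻ z in Phase b, dTheta F v z ≤
      C * ENNReal.ofReal (|d| / T) := fun v hv => (hM v).trans (by
    gcongr; rw [hv]; exact hu_le)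
  calc ∫⁻ z in Pair b T d, ‖F (sideStep d z) - F z‖ₑ
      ≤ ∫⁻ z in Pair b T d, dTheta F (-u) (sideStep d z) + ‖F (partner T d z) - F z‖ₑ :=
        lintegral_mono hsplit
    _ = (∫⁻ z in Pair b T d, dTheta F (-u) (sideStep d z)) +
        ∫⁻ z in Pair b T d, ‖F (partner T d z) - F z‖ₑ := lintegral_add_left hmeas _
    _ ≤ (∫⁻ z in Phase b, dTheta F (-u) z) + ∫⁻ a in Phase b, H a := by
        refine add_le_add ?_ ?_
        · exact setLIntegral_comp_mp (measurable_dTheta hF _) (mp_sideStep d)
            (measurableSet_phase b) (iUnion_subset fun w z hz => hz.2.1)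
        · calc _ ≤ ∑' w, ∫⁻ z in PairW b T d w, ‖F (partner T d z) - F z‖ₑ :=
                lintegral_iUnion_le _ _
            _ ≤ ∑' w, ∫⁻ a in V w, H a := ENNReal.tsum_le_tsum hpiece
            _ = ∫⁻ a in ⋃ w, V w, H a := (lintegral_iUnion hVm hVd _).symm
            _ ≤ _ := lintegral_mono_set (iUnion_subset fun w a ha => ha.1)
    _ ≤ _ := by
        have e : ∫⁻ a in Phase b, H a = (∫⁻ a in Phase b, dTheta F u a) +
            (∫⁻ a in Phase b, dTheta F (-u) a) + c * ∫⁻ a in Phase b, ‖F a‖ₑ := by
          show ∫⁻ a in Phase b, dTheta F u a + dTheta F (-u) a + c * ‖F a‖ₑ = _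
          have hm2 : Measurable fun a => dTheta F u a + dTheta F (-u) a :=
            (measurable_dTheta hF u).add (measurable_dTheta hF (-u))
          rw [lintegral_add_left hm2,
            lintegral_add_left (measurable_dTheta hF u), lintegral_const_mul _ hF.enorm]
        rw [e, ← add_assoc, ← add_assoc]
        gcongr
        rw [show (3 : ℝ≥0∞) * C * ENNReal.ofReal (|d| / T) = C * ENNReal.ofReal (|d| / T) +
          C * ENNReal.ofReal (|d| / T) + C * ENNReal.ofReal (|d| / T) by ring]
        exact add_le_add (add_le_add (hmod _ (abs_neg u)) (hmod _ rfl)) (hmod _ (abs_neg u))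

lemma eig_turn {F : ℂ × Dir → ℂ} {lam : ℝ} (hE : Eig b F lam) :
    Eig b (fun z => F (turn z)) (-lam) := by
  intro t ht w
  filter_upwards [(mp_turn.comp (mp_endState b w t)).quasiMeasurePreserving.ae
    (hE t ht w.reverse)] with z hz hz0 hg
  have h := hz (hg.end_mem b) (hg.reverse b hz0)
  simp only [Function.comp_apply, endState_reverse] at h
  rw [h, ← mul_assoc, ← Complex.exp_add]
  simp

lemma dTheta_turn (F : ℂ × Dir → ℂ) (u : ℝ) (z : ℂ × Dir) :
    dTheta (fun z => F (turn z)) u z = dTheta F u (turn z) := by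
  simp [dTheta, turn, spin, add_right_comm]

lemma lintegral_phase_turn {f : ℂ × Dir → ℝ≥0∞} (hf : Measurable f) :
    ∫⁻ z in Phase b, f (turn z) = ∫⁻ z in Phase b, f z :=
  mp_turn.setLIntegral_comp_preimage (measurableSet_phase b) hf

/-- Invariance under orthogonal translations. -/
theorem sideStep_invariant {F : ℂ × Dir → ℂ} (hF : Measurable F) {lam : ℝ} (hE : Eig b F lam)
    {C : ℝ≥0∞} (hC : C ≠ ⊤) (hM : Modulus b F C) (hN : ∫⁻ z in Phase b, ‖F z‖ₑ ≠ ⊤) (D : ℝ) :
    ∀ᵐ z : ℂ × Dir, z ∈ Phase b → sideStep D z ∈ Phase b → F (sideStep D z) = F z := by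
  set W := Phase b ∩ sideStep D ⁻¹' Phase b with hW
  have hWm : MeasurableSet W :=
    (measurableSet_phase b).inter ((mp_sideStep D).measurable (measurableSet_phase b))
  set g := fun z : ℂ × Dir => ‖F (sideStep D z) - F z‖ₑ with hg
  have hgm : Measurable g := by
    have := (mp_sideStep D).measurable
    simp only [hg]; fun_prop
  set N := ∫⁻ z in Phase b, ‖F z‖ₑ with hNdef
  let G : ℂ × Dir → ℂ := fun z => F (turn z)
  have hGm : Measurable G := hF.comp mp_turn.measurable
  have hGM : Modulus b G C := fun u => by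
    simp only [G, dTheta_turn]
    rw [lintegral_phase_turn b (measurable_dTheta hF u)]
    exact hM u
  have hGN : ∫⁻ z in Phase b, ‖G z‖ₑ = N := lintegral_phase_turn b hF.enorm
  suffices hbound : ∀ T, 0 < T → ∫⁻ z in W, g z ≤ 2 * (3 * C * ENNReal.ofReal (|D| / T)) by
    have h0 : ∫⁻ z in W, g z = 0 := by
      refine le_antisymm ?_ bot_le
      have hlim : Tendsto (fun T => 2 * (3 * C * ENNReal.ofReal (|D| / T))) atTop (𝓝 0) := by
        have h1 : Tendsto (fun T => ENNReal.ofReal (|D| / T)) atTop (𝓝 0) := by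
          simpa using ENNReal.tendsto_ofReal (tendsto_const_nhds.div_atTop tendsto_id)
        have h2 := ENNReal.Tendsto.const_mul h1 (a := 3 * C)
          (Or.inr (ENNReal.mul_ne_top (by norm_num) hC))
        rw [mul_zero] at h2
        simpa using ENNReal.Tendsto.const_mul h2 (a := 2) (Or.inr (by norm_num))
      exact ge_of_tendsto hlim (eventually_atTop.2 ⟨1, fun T hT => hbound T (by linarith)⟩)
    rw [setLIntegral_eq_zero_iff hWm hgm] at h0
    filter_upwards [h0] with z hz h1 h2
    simpa [hg, sub_eq_zero] using hz ⟨h1, h2⟩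
  intro T hT
  let P : ℝ → Set (ℂ × Dir) := fun d => Pair b T d ∪ turn ⁻¹' Pair b T (-d)
  have hPair : ∀ d, MeasurableSet (Pair b T d) := fun d =>
    MeasurableSet.iUnion fun w => (isOpen_pairW_slice b hT d w).measurableSet
  have hPm : ∀ d, MeasurableSet (P d) := fun d =>
    (hPair d).union (mp_turn.measurable (hPair (-d)))
  set K := fun d : ℝ => 3 * C * ENNReal.ofReal (|d| / T) +
    ENNReal.ofReal (|lam| * d ^ 2 / T) * N with hK
  have hstep : ∀ d, ∫⁻ z in P d, ‖F (sideStep d z) - F z‖ₑ ≤ 2 * K d := by
    intro d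
    refine (lintegral_union_le _ _ _).trans ?_
    refine le_trans ?_ (two_mul (K d)).ge
    refine add_le_add (step b hF hE hM hT d) ?_
    have h := step b hGm (eig_turn b hE) hGM hT (-d)
    rw [hGN, abs_neg, neg_sq, abs_neg] at h
    refine le_trans (le_of_eq ?_) h
    have hm : Measurable fun z => ‖G (sideStep (-d) z) - G z‖ₑ := by
      have := (mp_sideStep (-d)).measurable
      fun_prop
    rw [← mp_turn.setLIntegral_comp_preimage (hPair (-d)) hm]
    refine lintegral_congr fun z => ?_
    simp only [G]
    rw [← turn_sideStep, turn_turn, turn_turn]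
  let Z : ℕ → ℕ → ℂ × Dir → ℂ × Dir := fun n k z => sideStep (k * (D / n)) z
  let Gn : ℕ → Set (ℂ × Dir) := fun n => ⋂ k ∈ Finset.range n, Z n k ⁻¹' P (D / n)
  have hGnm : ∀ n, MeasurableSet (Gn n) := fun n =>
    Finset.measurableSet_biInter _ fun k _ => (mp_sideStep _).measurable (hPm _)
  have hev : ∀ᵐ z : ℂ × Dir, z ∈ W → ∀ᶠ n in atTop, z ∈ Gn n := by
    filter_upwards [segment_ok b hT D] with z hz hzW
    have hall := hz hzW.1 hzW.2
    have hloc : ∀ᶠ d in 𝓝 (0 : ℝ), ∀ h ∈ uIcc 0 D, sideStep h z ∈ P d := by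
      refine isCompact_uIcc.eventually_forall_of_forall_eventually fun h hh => ?_
      obtain ⟨hph, hok⟩ := hall h hh
      have hc : Continuous fun q : ℝ × ℝ => (q.1, sideStep q.2 z) :=
        continuous_fst.prodMk
          (continuous_sideStep.comp (continuous_snd.prodMk continuous_const))
      have hc' : Continuous fun q : ℝ × ℝ => (-q.1, turn (sideStep q.2 z)) :=
        continuous_fst.neg.prodMk (continuous_turn.comp
          (continuous_sideStep.comp (continuous_snd.prodMk continuous_const)))
      have h00 : ∀ y : ℂ × Dir, partner T 0 y = y ∧ sideStep 0 y = y := fun y => by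
        simp [partner, spin, sideStep, tilt]
      have h0T : tiltTime T 0 = T := by simp [tiltTime, Real.sqrt_sq hT.le]
      rcases hok with ⟨w, hw⟩ | ⟨w, hw⟩
      · have : (h00 (sideStep h z)).1 = (h00 (sideStep h z)).1 := rfl
        filter_upwards [((isOpen_pairW b hT w).preimage hc).mem_nhds (x := (0, h))
          ⟨hph, by rw [(h00 _).2]; exact hph, hw, by rw [(h00 _).1, h0T]; exact hw⟩] with q hq
        exact Or.inl (mem_iUnion.2 ⟨w, hq⟩)
      · filter_upwards [((isOpen_pairW b hT w).preimage hc').mem_nhds (x := (0, h))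
          (show turn (sideStep h z) ∈ PairW b T (-0) w by
            rw [neg_zero]
            exact ⟨hph, by rw [(h00 _).2]; exact hph, hw,
              by rw [(h00 _).1, h0T]; exact hw⟩)] with q hq
        exact Or.inr (mem_iUnion.2 ⟨w, hq⟩)
    filter_upwards [(tendsto_const_div_atTop_nhds_zero_nat D).eventually hloc] with n hn
    refine mem_iInter₂.2 fun k hk => hn _ ?_
    rw [← segment_eq_uIcc]
    have hkn : (k : ℝ) ≤ n := by exact_mod_cast (Finset.mem_range.1 hk).le
    have hn0 : (0 : ℝ) < n := by exact_mod_cast (Finset.mem_range.1 hk).trans_le' (Nat.zero_le _)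
    refine ⟨1 - k / n, k / n, ?_, by positivity, by ring, by simp; ring⟩
    rw [sub_nonneg, div_le_one hn0]; exact hkn
  have hbd : ∀ n : ℕ, 0 < n → ∫⁻ z in Gn n, g z ≤ n * (2 * K (D / n)) := by
    intro n hn
    have hn0 : (n : ℝ) ≠ 0 := by exact_mod_cast hn.ne'
    set d := D / n with hd
    have hm : ∀ k : ℕ, Measurable fun z => ‖F (Z n (k + 1) z) - F (Z n k z)‖ₑ := fun k => by
      have h1 : Measurable (Z n (k + 1)) := (mp_sideStep _).measurable
      have h2 : Measurable (Z n k) := (mp_sideStep _).measurable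
      fun_prop
    calc ∫⁻ z in Gn n, g z
        ≤ ∫⁻ z in Gn n, ∑ k ∈ Finset.range n, ‖F (Z n (k + 1) z) - F (Z n k z)‖ₑ := by
          refine lintegral_mono fun z => ?_
          refine le_trans (le_of_eq ?_) (enorm_sum_le _ _)
          rw [Finset.sum_range_sub (fun k => F (Z n k z))]
          simp only [hg, Z]
          rw [mul_div_cancel₀ _ hn0]
          simp [sideStep]
      _ = ∑ k ∈ Finset.range n, ∫⁻ z in Gn n, ‖F (Z n (k + 1) z) - F (Z n k z)‖ₑ :=
          lintegral_finsetSum _ fun k _ => hm k
      _ ≤ ∑ k ∈ Finset.range n, 2 * K d := by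
          refine Finset.sum_le_sum fun k hk => ?_
          have he : ∀ z, Z n (k + 1) z = sideStep d (Z n k z) := fun z => by
            simp only [Z, ← hd, ← sideStep_add]; push_cast; ring_nf
          simp only [he]
          refine le_trans ?_ (hstep d)
          have hm' : Measurable fun y => ‖F (sideStep d y) - F y‖ₑ := by
            have := (mp_sideStep d).measurable
            fun_prop
          exact setLIntegral_comp_mp hm' (mp_sideStep _) (hPm d)
            (fun z hz => mem_iInter₂.1 hz k hk)
      _ = n * (2 * K d) := by simp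
  calc ∫⁻ z in W, g z ≤ ∫⁻ z, liminf (fun n => (Gn n).indicator g z) atTop := by
        rw [← lintegral_indicator hWm]
        refine lintegral_mono_ae ?_
        filter_upwards [hev] with z hz
        by_cases hzW : z ∈ W
        · rw [indicator_of_mem hzW]
          refine le_liminf_of_le (by isBoundedDefault) ?_
          filter_upwards [hz hzW] with n hn
          rw [indicator_of_mem hn]
        · rw [indicator_of_notMem hzW]; exact bot_le
    _ ≤ liminf (fun n => ∫⁻ z, (Gn n).indicator g z) atTop :=
        lintegral_liminf_le fun n => hgm.indicator (hGnm n)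
    _ ≤ liminf (fun n : ℕ => 2 * (3 * C * ENNReal.ofReal (|D| / T) +
          ENNReal.ofReal (|lam| * D ^ 2 / T / n) * N)) atTop := by
        refine liminf_le_liminf ?_
        filter_upwards [eventually_gt_atTop 0] with n hn
        rw [lintegral_indicator (hGnm n)]
        refine (hbd n hn).trans (le_of_eq ?_)
        have hn0 : (0 : ℝ) < n := by exact_mod_cast hn
        have e1 : ENNReal.ofReal (|D| / T) = n * ENNReal.ofReal (|D / n| / T) := by
          rw [← ENNReal.ofReal_natCast n, ← ENNReal.ofReal_mul hn0.le, abs_div, abs_of_pos hn0]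
          congr 1; field_simp
        have e2 : ENNReal.ofReal (|lam| * D ^ 2 / T / n) =
            n * ENNReal.ofReal (|lam| * (D / n) ^ 2 / T) := by
          rw [← ENNReal.ofReal_natCast n, ← ENNReal.ofReal_mul hn0.le]
          congr 1; field_simp
        simp only [hK, e1, e2]
        ring
    _ = 2 * (3 * C * ENNReal.ofReal (|D| / T)) := by
        refine Tendsto.liminf_eq ?_
        have h1 : Tendsto (fun n : ℕ => ENNReal.ofReal (|lam| * D ^ 2 / T / n)) atTop (𝓝 0) := by
          simpa using ENNReal.tendsto_ofReal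
            (tendsto_const_div_atTop_nhds_zero_nat (|lam| * D ^ 2 / T))
        have h2 := ENNReal.Tendsto.mul_const h1 (b := N) (Or.inr hN)
        rw [zero_mul] at h2
        have h3 := tendsto_const_nhds (x := 3 * C * ENNReal.ofReal (|D| / T)) |>.add h2
        rw [add_zero] at h3
        exact ENNReal.Tendsto.const_mul h3 (Or.inr (by norm_num))

end

end Vale.Agent.P099
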